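import Vale.Agent.P237.Petty.Cor.Band.A.Chart000Box

/-!
# P237: some rows of the lower band, checked by the kernel
-/

set_option linter.style.longLine false

namespace Vale.Agent.P237.Petty.Cor.Band.A

/-- A piece. -/
def chart0p2 : Piece :=
  let B : Box := chart0box
  ⟨(2 / 5), (7 / 10), (836661 / 1000000), 1, 0, (55783 / 500000000),
      (cornersFar B 0 [19698800000000, 22259500000000, 7353790000, 1044590000000]),
      (cornersFar B 1 [93965000000, 94238300000, 93063200000, 92840400000]),
      [],
      [],
      [],
      [],
      [],
      [], 0⟩

def chart0p2_ok : okPiece (okFar chart0box) par ⟨0, 0, 0⟩ false none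
    (remPoly ofQ yV eV wV fld fld.atoms) chart0p2 = true := by decide +kernel

/-- A piece. -/
def chart0p3 : Piece :=
  let B : Box := chart0box
  ⟨(7 / 10), 1, 1, 1, 0, (562341 / 1000000000),
      (cornersFar B 0 [63518000000000, 63545300000000, 9848370000000, 9848630000000]),
      (cornersFar B 1 [103410000000, 103775000000, 105221000000, 105275000000]),
      [],
      [],
      [],
      [],
      [],
      (cornersFar B 2 [11085700000000, 11129800000000, 2473470000000000, 2820300000000000]), 0⟩

def chart0p3_ok : okPiece (okFar chart0box) par ⟨0, 0, 0⟩ false none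
    (remPoly ofQ yV eV wV fld fld.atoms) chart0p3 = true := by decide +kernel

end Vale.Agent.P237.Petty.Cor.Band.A
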