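import Vale.Agent.P237.Petty.Cor.Band.A.Chart000Box

/-!
# P237: some rows of the lower band, checked by the kernel
-/

set_option linter.style.longLine false

namespace Vale.Agent.P237.Petty.Cor.Band.A

/-- A piece. -/
def chart0p4 : Piece :=
  let B : Box := chart0box
  ⟨1, (21 / 20), (10247 / 10000), 1, 0, (51373 / 500000),
      (cornersFar B 0 [943278000000000, 870816000000000, 840152000000, 26670800000000]),
      (cornersFar B 1 [56847800000, 56750900000, 114772000000, 112411000000]),
      [],
      [],
      [],
      [],
      [],
      (cornersFar B 2 [15552600000, 684640000000, 9988630000000000, 9990600000000000]), 0⟩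

theorem chart0p4_ok : okPiece (okFar chart0box) par ⟨0, 0, 0⟩ false none
    (remPoly ofQ yV eV wV fld fld.atoms) chart0p4 = true := by decide +kernel

end Vale.Agent.P237.Petty.Cor.Band.A
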