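import Vale.Agent.P237.Petty.Cor.Band.A.Chart000Box

/-!
# P237: some rows of the lower band, checked by the kernel
-/

set_option linter.style.longLine false

namespace Vale.Agent.P237.Petty.Cor.Band.A

/-- A piece. -/
def chart0p5 : Piece :=
  let B : Box := chart0box
  ⟨(21 / 20), (6 / 5), (21909 / 20000), (561 / 500), (115111 / 1000000), (445121 / 5000000000),
      (cornersFar B 0 [763979, 764042, 387815000, 387870000]),
      (cornersFar B 0 [136645000, 136652000, 18066600000000, 19336800000000]),
      [],
      (cornersFar B 1 [0, 0, 10885100000, 10857600000]),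
      [],
      (cornersFar B 1 [494786000, 494798000, 2410470000, 2410830000]),
      [],
      (cornersFar B 0 [2026910000, 2027160000, 4232490000000, 4685180000000]), 0⟩

theorem chart0p5_ok : okPiece (okFar chart0box) par ⟨0, 0, 0⟩ false none
    (remPoly ofQ yV eV wV fld fld.atoms) chart0p5 = true := by decide +kernel

end Vale.Agent.P237.Petty.Cor.Band.A
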