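import Vale.Agent.P237.Petty.Cor.Band.A.Chart000Box

/-!
# P237: some rows of the lower band, checked by the kernel
-/

set_option linter.style.longLine false

namespace Vale.Agent.P237.Petty.Cor.Band.A

/-- A piece. -/
def chart0p6 : Piece :=
  let B : Box := chart0box
  ⟨(6 / 5), (3 / 2), (4899 / 4000), (671 / 500), (3677 / 12500), (209897 / 1000000000),
      (cornersFar B 0 [4206330, 4207410, 272224000, 272285000]),
      (cornersFar B 0 [1218720000, 1218950000, 16228800000000, 17330600000000]),
      [],
      (cornersFar B 1 [0, 0, 11014000000, 10990200000]),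
      [],
      (cornersFar B 1 [1016440000, 1016580000, 2398240000, 2398410000]),
      [],
      (cornersFar B 0 [2027820000, 2028410000, 3077170000000, 3399200000000]), 0⟩

theorem chart0p6_ok : okPiece (okFar chart0box) par ⟨0, 0, 0⟩ false none
    (remPoly ofQ yV eV wV fld fld.atoms) chart0p6 = true := by decide +kernel

end Vale.Agent.P237.Petty.Cor.Band.A
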