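import Vale.Agent.P237.Petty.Cor.Band.A.Chart000Box

/-!
# P237: some rows of the lower band, checked by the kernel
-/

set_option linter.style.longLine false

namespace Vale.Agent.P237.Petty.Cor.Band.A

/-- A piece. -/
def chart0p7 : Piece :=
  let B : Box := chart0box
  ⟨(3 / 2), (11 / 5), (37081 / 25000), (1817 / 1000), (119437 / 200000), (204221 / 2500000000),
      (cornersFar B 0 [4058570, 4059090, 131094000, 131111000]),
      (cornersFar B 0 [964622000, 964636000, 11363900000000, 11845200000000]),
      [],
      (cornersFar B 1 [0, 0, 11414700000, 11417900000]),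
      [],
      (cornersFar B 1 [3239260000, 3239340000, 2346720000, 2346730000]),
      [],
      (cornersFar B 0 [433956000, 434048000, 1082780000000, 1144780000000]), 0⟩

theorem chart0p7_ok : okPiece (okFar chart0box) par ⟨0, 0, 0⟩ false none
    (remPoly ofQ yV eV wV fld fld.atoms) chart0p7 = true := by decide +kernel

end Vale.Agent.P237.Petty.Cor.Band.A
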