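import Vale.Agent.P237.Petty.Cor.Band.A.Chart000Box

/-!
# P237: some rows of the lower band, checked by the kernel
-/

set_option linter.style.longLine false

namespace Vale.Agent.P237.Petty.Cor.Band.A

/-- A piece. -/
def chart0p8 : Piece :=
  let B : Box := chart0box
  ⟨(11 / 5), 4, 2, (1483 / 500), (108721 / 100000), (131531 / 1000),
      (cornersFar B 0 [419635000, 419505000, 10361900000, 10254500000]),
      (cornersFar B 2 [449633000, 449556000, 20692400000, 20477900000]),
      [],
      (cornersFar B 1 [14103000, 14100600, 648310000, 641613000]),
      (cornersFar B 1 [879359000, 879437000, 11050500000, 11044000000]),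
      (cornersFar B 1 [28072700, 28070600, 145648000, 145612000]),
      (cornersFar B 1 [136349000, 136354000, 163072000, 163172000]),
      (cornersFar B 2 [4594340000, 4595220000, 159965000000, 157623000000]), 0⟩

def chart0p8_ok : okPiece (okFar chart0box) par ⟨0, 0, 0⟩ false none
    (remPoly ofQ yV eV wV fld fld.atoms) chart0p8 = true := by decide +kernel

/-- A piece. -/
def chart0p9 : Piece :=
  let B : Box := chart0box
  ⟨4, 8, (282843 / 100000), (5657 / 1000), (173289 / 100000), (494079 / 5000),
      (cornersFar B 0 [497176000, 497143000, 6775940000, 6754380000]),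
      (cornersFar B 2 [759600000, 759559000, 20895700000, 20824200000]),
      [],
      (cornersFar B 1 [23838300, 23837000, 654943000, 652710000]),
      (cornersFar B 1 [1589150000, 1589160000, 11794600000, 11789900000]),
      (cornersFar B 1 [15381700, 15381300, 80528500, 80503700]),
      (cornersFar B 1 [82815300, 82816700, 97128200, 97150000]),
      (cornersFar B 2 [3551000000, 3550880000, 88607200000, 88168000000]), 0⟩

def chart0p9_ok : okPiece (okFar chart0box) par ⟨0, 0, 0⟩ false none
    (remPoly ofQ yV eV wV fld fld.atoms) chart0p9 = true := by decide +kernel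

end Vale.Agent.P237.Petty.Cor.Band.A
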