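import Vale.Agent.P237.Petty.Cor.Band.A.Chart000Box

/-!
# P237: some rows of the lower band, checked by the kernel
-/

set_option linter.style.longLine false

namespace Vale.Agent.P237.Petty.Cor.Band.A

/-- A piece. -/
def chart0p0 : Piece :=
  let B : Box := chart0box
  ⟨0, (1 / 5), (223607 / 500000), 1, 0, 0,
      (cornersFar B 0 [20415200000000, 21110700000000, 69390900000, 359291000000]),
      (cornersFar B 1 [99845400000, 100129000000, 93254300000, 93116500000]),
      [],
      [],
      [],
      [],
      [],
      [], 0⟩

def chart0p0_ok : okPiece (okFar chart0box) par ⟨0, 0, 0⟩ false none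
    (remPoly ofQ yV eV wV fld fld.atoms) chart0p0 = true := by decide +kernel

/-- A piece. -/
def chart0p1 : Piece :=
  let B : Box := chart0box
  ⟨(1 / 5), (2 / 5), (79057 / 125000), 1, 0, (121951 / 200000000),
      (cornersFar B 0 [20070700000000, 21507700000000, 23372900000, 621581000000]),
      (cornersFar B 1 [96683300000, 96969100000, 93089500000, 92896200000]),
      [],
      [],
      [],
      [],
      [],
      [], 0⟩

def chart0p1_ok : okPiece (okFar chart0box) par ⟨0, 0, 0⟩ false none
    (remPoly ofQ yV eV wV fld fld.atoms) chart0p1 = true := by decide +kernel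

end Vale.Agent.P237.Petty.Cor.Band.A
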