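import Vale.Agent.P237.Petty.Cor.Band.A.Chart001Box

/-!
# P237: some rows of the lower band, checked by the kernel
-/

set_option linter.style.longLine false

namespace Vale.Agent.P237.Petty.Cor.Band.A

/-- A piece. -/
def chart1p2 : Piece :=
  let B : Box := chart1box
  ⟨(2 / 5), (7 / 10), (836661 / 1000000), 1, 0, (261269 / 500000000),
      (cornersFar B 2 [55195600000, 55291800000, 9289050000, 9293140000]),
      (cornersFar B 1 [100996000000, 101103000000, 104274000000, 104281000000]),
      [],
      [],
      [],
      [],
      [],
      (cornersFar B 2 [3618370000000, 3622880000000, 22535800000000, 24355500000000]), 0⟩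

def chart1p2_ok : okPiece (okFar chart1box) par ⟨0, 0, 0⟩ false none
    (remPoly ofQ yV eV wV fld fld.atoms) chart1p2 = true := by decide +kernel

/-- A piece. -/
def chart1p3 : Piece :=
  let B : Box := chart1box
  ⟨(7 / 10), 1, 1, 1, 0, (5663 / 10000000),
      (cornersFar B 2 [50379600000, 50424600000, 7811660000, 7812920000]),
      (cornersFar B 1 [100770000000, 100867000000, 104020000000, 104031000000]),
      [],
      [],
      [],
      [],
      [],
      (cornersFar B 2 [10826700000000, 10838800000000, 177348000000000, 199280000000000]), 0⟩

def chart1p3_ok : okPiece (okFar chart1box) par ⟨0, 0, 0⟩ false none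
    (remPoly ofQ yV eV wV fld fld.atoms) chart1p3 = true := by decide +kernel

end Vale.Agent.P237.Petty.Cor.Band.A
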