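import Vale.Agent.P237.Petty.Cor.Band.A.Chart001Box

/-!
# P237: some rows of the lower band, checked by the kernel
-/

set_option linter.style.longLine false

namespace Vale.Agent.P237.Petty.Cor.Band.A

/-- A piece. -/
def chart1p4 : Piece :=
  let B : Box := chart1box
  ⟨1, (21 / 20), (10247 / 10000), 1, 0, (80001 / 250000),
      (cornersFar B 2 [2582180000000, 2577400000000, 173966000, 2951990000]),
      (cornersFar B 1 [3035980000, 4243850000, 119552000000, 108005000000]),
      [],
      [],
      [],
      [],
      [],
      (cornersFar B 2 [3658950000, 73540700000, 551831000000000, 1815990000000000]), 0⟩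

theorem chart1p4_ok : okPiece (okFar chart1box) par ⟨0, 0, 0⟩ false none
    (remPoly ofQ yV eV wV fld fld.atoms) chart1p4 = true := by decide +kernel

end Vale.Agent.P237.Petty.Cor.Band.A
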