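import Vale.Agent.P237.Petty.Cor.Band.A.Chart001Box

/-!
# P237: some rows of the lower band, checked by the kernel
-/

set_option linter.style.longLine false

namespace Vale.Agent.P237.Petty.Cor.Band.A

/-- A piece. -/
def chart1p5 : Piece :=
  let B : Box := chart1box
  ⟨(21 / 20), (6 / 5), (21909 / 20000), (561 / 500), (115111 / 1000000), (9047 / 50000000),
      (cornersFar B 2 [1703, 1707, 741783, 743027]),
      (cornersFar B 2 [201319, 202095, 3858160000, 4187870000]),
      [],
      (cornersFar B 1 [39793, 39909, 11111600000, 11098300000]),
      (cornersFar B 1 [0, 0, 97464, 106421]),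
      (cornersFar B 1 [477224000, 478351000, 2256710000, 2255550000]),
      (cornersFar B 1 [61433, 61674, 631155000, 661044000]),
      (cornersFar B 2 [4601610, 4601710, 921562000, 1038950000]), 0⟩

theorem chart1p5_ok : okPiece (okFar chart1box) par ⟨0, 0, 0⟩ false none
    (remPoly ofQ yV eV wV fld fld.atoms) chart1p5 = true := by decide +kernel

end Vale.Agent.P237.Petty.Cor.Band.A
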