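import Vale.Agent.P237.Petty.Cor.Band.A.Chart001Box

/-!
# P237: some rows of the lower band, checked by the kernel
-/

set_option linter.style.longLine false

namespace Vale.Agent.P237.Petty.Cor.Band.A

/-- A piece. -/
def chart1p6 : Piece :=
  let B : Box := chart1box
  ⟨(6 / 5), (3 / 2), (4899 / 4000), (671 / 500), (3677 / 12500), (49607 / 200000000),
      (cornersFar B 2 [6209, 6221, 522406, 522851]),
      (cornersFar B 2 [1040180, 1041590, 6720300000, 7122130000]),
      [],
      (cornersFar B 1 [314997, 315440, 11175900000, 11168500000]),
      (cornersFar B 1 [235, 235, 3046130, 3322260]),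
      (cornersFar B 1 [659110000, 659544000, 2185100000, 2185050000]),
      (cornersFar B 1 [814468, 815801, 954714000, 977184000]),
      (cornersFar B 2 [6043630, 6043770, 1302300000, 1415120000]), 0⟩

def chart1p6_ok : okPiece (okFar chart1box) par ⟨0, 0, 0⟩ false none
    (remPoly ofQ yV eV wV fld fld.atoms) chart1p6 = true := by decide +kernel

/-- A piece. -/
def chart1p7 : Piece :=
  let B : Box := chart1box
  ⟨(3 / 2), (11 / 5), (37081 / 25000), (1817 / 1000), (119437 / 200000), (27423 / 2500),
      (cornersFar B 2 [3468700, 3465500, 22757800, 1588130]),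
      (cornersFar B 2 [1935480000, 1906690000, 17785700000, 426457000]),
      [],
      (cornersFar B 1 [61674100, 60770800, 568424000, 14033100]),
      (cornersFar B 1 [1961780000, 1984740000, 11824100000, 12356300000]),
      (cornersFar B 1 [523582000, 519916000, 1589060000, 358869000]),
      (cornersFar B 1 [1471480000, 1485010000, 1926500000, 2046670000]),
      (cornersFar B 2 [37997700000, 39084500000, 260385000000, 201213000000]), 0⟩

def chart1p7_ok : okPiece (okFar chart1box) par ⟨0, 0, 0⟩ false none
    (remPoly ofQ yV eV wV fld fld.atoms) chart1p7 = true := by decide +kernel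

end Vale.Agent.P237.Petty.Cor.Band.A
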