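import Vale.Agent.P237.Petty.Cor.Band.A.Chart001Box

/-!
# P237: some rows of the lower band, checked by the kernel
-/

set_option linter.style.longLine false

namespace Vale.Agent.P237.Petty.Cor.Band.A

/-- A piece. -/
def chart1p8 : Piece :=
  let B : Box := chart1box
  ⟨(11 / 5), 4, 2, (1483 / 500), (108721 / 100000), (64227 / 5000),
      (cornersFar B 2 [5602330, 5580240, 17982800, 1275010]),
      (cornersFar B 2 [3558740000, 3423900000, 18302900000, 368463000]),
      [],
      (cornersFar B 1 [112618000, 108382000, 578133000, 11687700]),
      (cornersFar B 1 [4766490000, 4835400000, 15223300000, 14958200000]),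
      (cornersFar B 1 [198704000, 193798000, 552844000, 40337800]),
      (cornersFar B 1 [701201000, 707740000, 898560000, 955477000]),
      (cornersFar B 2 [33670700000, 35332600000, 159840000000, 89119600000]), 0⟩

def chart1p8_ok : okPiece (okFar chart1box) par ⟨0, 0, 0⟩ false none
    (remPoly ofQ yV eV wV fld fld.atoms) chart1p8 = true := by decide +kernel

/-- A piece. -/
def chart1p9 : Piece :=
  let B : Box := chart1box
  ⟨4, 8, (282843 / 100000), (5657 / 1000), (173289 / 100000), (253371 / 50000),
      (cornersFar B 2 [1259120, 1257140, 9333530, 9208340]),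
      (cornersFar B 2 [681809000, 679688000, 18307700000, 15840300000]),
      [],
      (cornersFar B 1 [21701400, 21634000, 579456000, 501731000]),
      (cornersFar B 1 [6228970000, 6230030000, 16722700000, 16483200000]),
      (cornersFar B 1 [15900600, 15857600, 204173000, 192916000]),
      (cornersFar B 1 [334218000, 334223000, 379676000, 380874000]),
      (cornersFar B 2 [8790160000, 8798260000, 87032100000, 73244500000]), 0⟩

def chart1p9_ok : okPiece (okFar chart1box) par ⟨0, 0, 0⟩ false none
    (remPoly ofQ yV eV wV fld fld.atoms) chart1p9 = true := by decide +kernel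

end Vale.Agent.P237.Petty.Cor.Band.A
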