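import Vale.Agent.P237.Petty.Cor.Band.A.Chart001Box

/-!
# P237: some rows of the lower band, checked by the kernel
-/

set_option linter.style.longLine false

namespace Vale.Agent.P237.Petty.Cor.Band.A

theorem chart1_big : (bigExprs par (remPoly ofQ yV eV wV fld fld.atoms)).all (okFar chart1box) = true := by decide +kernel

end Vale.Agent.P237.Petty.Cor.Band.A
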