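import Vale.Agent.P237.Petty.Cor.Band.A.Chart001a
import Vale.Agent.P237.Petty.Cor.Band.A.Chart001b
import Vale.Agent.P237.Petty.Cor.Band.A.Chart001c
import Vale.Agent.P237.Petty.Cor.Band.A.Chart001c2
import Vale.Agent.P237.Petty.Cor.Band.A.Chart001d
import Vale.Agent.P237.Petty.Cor.Band.A.Chart001e
import Vale.Agent.P237.Petty.Cor.Band.A.Chart001f

/-!
# P237: some rows of the lower band, checked by the kernel
-/

set_option linter.style.longLine false

namespace Vale.Agent.P237.Petty.Cor.Band.A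

/-- A row. -/
def chart1 : ChartRow := ⟨chart1box, [chart1p0, chart1p1, chart1p2, chart1p3, chart1p4, chart1p5, chart1p6, chart1p7, chart1p8, chart1p9]⟩

theorem chart1_ok : chart1.ok par fld = true :=
  ChartRow.ok_of (by decide +kernel)
    (List.forall_mem_cons.2 ⟨chart1p0_ok, List.forall_mem_cons.2 ⟨chart1p1_ok, List.forall_mem_cons.2 ⟨chart1p2_ok, List.forall_mem_cons.2 ⟨chart1p3_ok, List.forall_mem_cons.2 ⟨chart1p4_ok, List.forall_mem_cons.2 ⟨chart1p5_ok, List.forall_mem_cons.2 ⟨chart1p6_ok, List.forall_mem_cons.2 ⟨chart1p7_ok, List.forall_mem_cons.2 ⟨chart1p8_ok, List.forall_mem_cons.2 ⟨chart1p9_ok, List.forall_mem_nil _⟩⟩⟩⟩⟩⟩⟩⟩⟩⟩)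
    chart1_big

/-- The rows of this file. -/
def chart001_list : List ChartRow := [chart1]

theorem chart001_list_ok : ∀ R ∈ chart001_list, R.ok par fld = true := by
  simp [chart001_list, chart1_ok]

end Vale.Agent.P237.Petty.Cor.Band.A
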