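import Vale.Agent.P237.Petty.Cor.Band.A.Chart001Box

/-!
# P237: some rows of the lower band, checked by the kernel
-/

set_option linter.style.longLine false

namespace Vale.Agent.P237.Petty.Cor.Band.A

/-- A piece. -/
def chart1p0 : Piece :=
  let B : Box := chart1box
  ⟨0, (1 / 5), (223607 / 500000), 1, 0, 0,
      (cornersFar B 2 [29256000000, 29817900000, 50896500, 1827850000]),
      (cornersFar B 1 [98397800000, 98414400000, 100688000000, 100670000000]),
      [],
      [],
      [],
      [],
      [],
      [], 0⟩

def chart1p0_ok : okPiece (okFar chart1box) par ⟨0, 0, 0⟩ false none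
    (remPoly ofQ yV eV wV fld fld.atoms) chart1p0 = true := by decide +kernel

/-- A piece. -/
def chart1p1 : Piece :=
  let B : Box := chart1box
  ⟨(1 / 5), (2 / 5), (79057 / 125000), 1, 0, (530473 / 1000000000),
      (cornersFar B 2 [57810700000, 57848900000, 10980200000, 10980700000]),
      (cornersFar B 1 [101056000000, 101103000000, 104417000000, 104401000000]),
      [],
      [],
      [],
      [],
      [],
      (cornersFar B 2 [2328350000000, 2329910000000, 9907440000000, 9950200000000]), 0⟩

def chart1p1_ok : okPiece (okFar chart1box) par ⟨0, 0, 0⟩ false none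
    (remPoly ofQ yV eV wV fld fld.atoms) chart1p1 = true := by decide +kernel

end Vale.Agent.P237.Petty.Cor.Band.A
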