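import Vale.Agent.P237.Petty.Cor.Band.A.Chart002Box

/-!
# P237: some rows of the lower band, checked by the kernel
-/

set_option linter.style.longLine false

namespace Vale.Agent.P237.Petty.Cor.Band.A

/-- A piece. -/
def chart2p2 : Piece :=
  let B : Box := chart2box
  ⟨(2 / 5), (7 / 10), (836661 / 1000000), 1, 0, (163391 / 500000),
      (cornersFar B 2 [270414000000, 215462000000, 62362200000, 45450700000]),
      (cornersFar B 1 [83716600000, 84211200000, 92519600000, 91671300000]),
      [],
      [],
      [],
      [],
      [],
      (cornersFar B 2 [3146400000000, 3157740000000, 3289870000000, 3066820000000]), 0⟩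

def chart2p2_ok : okPiece (okFar chart2box) par ⟨0, 0, 0⟩ false none
    (remPoly ofQ yV eV wV fld fld.atoms) chart2p2 = true := by decide +kernel

/-- A piece. -/
def chart2p3 : Piece :=
  let B : Box := chart2box
  ⟨(7 / 10), 1, 1, 1, 0, (25173 / 100000),
      (cornersFar B 2 [374801000000, 354043000000, 85411700000, 71492700000]),
      (cornersFar B 1 [80662600000, 80251500000, 91723700000, 90924200000]),
      [],
      [],
      [],
      [],
      [],
      (cornersFar B 2 [9059560000000, 9000780000000, 10612700000000, 9103950000000]), 0⟩

def chart2p3_ok : okPiece (okFar chart2box) par ⟨0, 0, 0⟩ false none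
    (remPoly ofQ yV eV wV fld fld.atoms) chart2p3 = true := by decide +kernel

end Vale.Agent.P237.Petty.Cor.Band.A
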