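import Vale.Agent.P237.Petty.Cor.Band.A.Chart002Box

/-!
# P237: some rows of the lower band, checked by the kernel
-/

set_option linter.style.longLine false

namespace Vale.Agent.P237.Petty.Cor.Band.A

/-- A piece. -/
def chart2p4 : Piece :=
  let B : Box := chart2box
  ⟨1, (21 / 20), (10247 / 10000), 1, 0, (324567 / 1000000),
      (cornersFar B 2 [3119700000000, 3140910000000, 2588370000000, 2576400000000]),
      (cornersFar B 1 [1112570, 91682300, 18508800000, 19444900000]),
      [],
      [],
      [],
      [],
      [],
      (cornersFar B 2 [2751090000000, 2513290000000, 16302100000000, 20474500000000]), 0⟩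

theorem chart2p4_ok : okPiece (okFar chart2box) par ⟨0, 0, 0⟩ false none
    (remPoly ofQ yV eV wV fld fld.atoms) chart2p4 = true := by decide +kernel

end Vale.Agent.P237.Petty.Cor.Band.A
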