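import Vale.Agent.P237.Petty.Cor.Band.A.Chart002Box

/-!
# P237: some rows of the lower band, checked by the kernel
-/

set_option linter.style.longLine false

namespace Vale.Agent.P237.Petty.Cor.Band.A

/-- A piece. -/
def chart2p5 : Piece :=
  let B : Box := chart2box
  ⟨(21 / 20), (6 / 5), (21909 / 20000), (561 / 500), (115111 / 1000000), (25223 / 125000000),
      (cornersFar B 2 [191448, 160103, 23108800, 11757000]),
      (cornersFar B 2 [622548, 4314680, 105998000, 618180000]),
      [],
      (cornersFar B 1 [83185, 422773, 10520900000, 10684300000]),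
      (cornersFar B 1 [0, 383, 7445, 58066]),
      (cornersFar B 1 [377307000, 749570000, 532431000, 1122070000]),
      (cornersFar B 1 [185563, 1286040, 31902100, 167081000]),
      (cornersFar B 2 [67738900, 69391800, 6983270000, 7126810000]), 0⟩

theorem chart2p5_ok : okPiece (okFar chart2box) par ⟨0, 0, 0⟩ false none
    (remPoly ofQ yV eV wV fld fld.atoms) chart2p5 = true := by decide +kernel

end Vale.Agent.P237.Petty.Cor.Band.A
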