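import Vale.Agent.P237.Petty.Cor.Band.A.Chart002Box

/-!
# P237: some rows of the lower band, checked by the kernel
-/

set_option linter.style.longLine false

namespace Vale.Agent.P237.Petty.Cor.Band.A

/-- A piece. -/
def chart2p6 : Piece :=
  let B : Box := chart2box
  ⟨(6 / 5), (3 / 2), (4899 / 4000), (671 / 500), (3677 / 12500), (175999 / 500000000),
      (cornersFar B 2 [751618, 587895, 9384440, 3975280]),
      (cornersFar B 2 [73536000, 35520300, 3463000000, 21112400]),
      [],
      (cornersFar B 1 [6721800, 5089300, 10627700000, 10833300000]),
      (cornersFar B 1 [90617, 41474, 4686860, 39339]),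
      (cornersFar B 1 [1021360000, 1052890000, 1829690000, 1926900000]),
      (cornersFar B 1 [62803300, 38004000, 921961000, 7210880]),
      (cornersFar B 2 [67724600, 25851700, 7031860000, 10445700000]), 0⟩

def chart2p6_ok : okPiece (okFar chart2box) par ⟨0, 0, 0⟩ false none
    (remPoly ofQ yV eV wV fld fld.atoms) chart2p6 = true := by decide +kernel

/-- A piece. -/
def chart2p7 : Piece :=
  let B : Box := chart2box
  ⟨(3 / 2), (11 / 5), (37081 / 25000), (1817 / 1000), (119437 / 200000), (193903 / 50000000),
      (cornersFar B 2 [5767470, 5810870, 5014140, 2700390]),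
      (cornersFar B 2 [1376640000, 1358500000, 13315400000, 92780500]),
      [],
      (cornersFar B 1 [51894800, 51292800, 532379000, 5584610]),
      (cornersFar B 1 [1405570000, 1413830000, 11018600000, 11127600000]),
      (cornersFar B 1 [462032000, 458796000, 1609850000, 164422000]),
      (cornersFar B 1 [1401430000, 1413100000, 1901650000, 2039020000]),
      (cornersFar B 2 [29237300000, 29665500000, 224782000000, 190424000000]), 0⟩

def chart2p7_ok : okPiece (okFar chart2box) par ⟨0, 0, 0⟩ false none
    (remPoly ofQ yV eV wV fld fld.atoms) chart2p7 = true := by decide +kernel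

end Vale.Agent.P237.Petty.Cor.Band.A
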