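import Vale.Agent.P237.Petty.Cor.Band.A.Chart002Box

/-!
# P237: some rows of the lower band, checked by the kernel
-/

set_option linter.style.longLine false

namespace Vale.Agent.P237.Petty.Cor.Band.A

/-- A piece. -/
def chart2p8 : Piece :=
  let B : Box := chart2box
  ⟨(11 / 5), 4, 2, (1483 / 500), (108721 / 100000), (861359 / 10000000),
      (cornersFar B 2 [7713680, 7817430, 7864900, 3155890]),
      (cornersFar B 2 [8186850000, 7962080000, 21750600000, 153984000]),
      [],
      (cornersFar B 1 [278564000, 271450000, 736861000, 5421580]),
      (cornersFar B 1 [9520200000, 9713260000, 19349800000, 17066900000]),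
      (cornersFar B 1 [453311000, 445211000, 938626000, 17898300]),
      (cornersFar B 1 [1492450000, 1500370000, 1919140000, 2022040000]),
      (cornersFar B 2 [83503900000, 88178200000, 193250000000, 112409000000]), 0⟩

def chart2p8_ok : okPiece (okFar chart2box) par ⟨0, 0, 0⟩ false none
    (remPoly ofQ yV eV wV fld fld.atoms) chart2p8 = true := by decide +kernel

/-- A piece. -/
def chart2p9 : Piece :=
  let B : Box := chart2box
  ⟨4, 8, (282843 / 100000), (5657 / 1000), (173289 / 100000), (114961 / 1000000),
      (cornersFar B 2 [6934130, 7015310, 7575420, 3947020]),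
      (cornersFar B 2 [17544000000, 17035600000, 29778300000, 304334000]),
      [],
      (cornersFar B 1 [610548000, 593767000, 1027750000, 10639500]),
      (cornersFar B 1 [29397400000, 29989200000, 38404400000, 32215700000]),
      (cornersFar B 1 [345051000, 337368000, 563734000, 10390300]),
      (cornersFar B 1 [1498290000, 1503440000, 1878400000, 1951850000]),
      (cornersFar B 2 [105682000000, 111356000000, 153375000000, 77788400000]), 0⟩

def chart2p9_ok : okPiece (okFar chart2box) par ⟨0, 0, 0⟩ false none
    (remPoly ofQ yV eV wV fld fld.atoms) chart2p9 = true := by decide +kernel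

end Vale.Agent.P237.Petty.Cor.Band.A
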