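import Vale.Agent.P237.Petty.Cor.Band.A.Chart002Box

/-!
# P237: some rows of the lower band, checked by the kernel
-/

set_option linter.style.longLine false

namespace Vale.Agent.P237.Petty.Cor.Band.A

/-- A piece. -/
def chart2p0 : Piece :=
  let B : Box := chart2box
  ⟨0, (1 / 5), (223607 / 500000), 1, 0, 0,
      (cornersFar B 2 [229763000000, 153406000000, 44881600000, 27935600000]),
      (cornersFar B 1 [84911600000, 85982100000, 93037000000, 92172100000]),
      [],
      [],
      [],
      [],
      [],
      (cornersFar B 2 [1637270000000, 1630420000000, 1675890000000, 1553260000000]), 0⟩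

def chart2p0_ok : okPiece (okFar chart2box) par ⟨0, 0, 0⟩ false none
    (remPoly ofQ yV eV wV fld fld.atoms) chart2p0 = true := by decide +kernel

/-- A piece. -/
def chart2p1 : Piece :=
  let B : Box := chart2box
  ⟨(1 / 5), (2 / 5), (79057 / 125000), 1, 0, (25673 / 62500),
      (cornersFar B 2 [239762000000, 172593000000, 53214300000, 34102100000]),
      (cornersFar B 1 [84615200000, 85434600000, 92809600000, 91995600000]),
      [],
      [],
      [],
      [],
      [],
      (cornersFar B 2 [2059590000000, 2065520000000, 2106350000000, 1981430000000]), 0⟩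

def chart2p1_ok : okPiece (okFar chart2box) par ⟨0, 0, 0⟩ false none
    (remPoly ofQ yV eV wV fld fld.atoms) chart2p1 = true := by decide +kernel

end Vale.Agent.P237.Petty.Cor.Band.A
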