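import Vale.Agent.P237.Petty.Cor.Band.A.Par

/-!
# P237: some rows of the lower band, checked by the kernel
-/

set_option linter.style.longLine false

namespace Vale.Agent.P237.Petty.Cor.Band.A

/-- The box of a row. -/
def chart3box : Box := ⟨(11 / 100), (11 / 50), 0, (1 / 8), (297 / 2000), (9 / 20)⟩

/-- A piece. -/
def chart3p0 : Piece :=
  let B : Box := chart3box
  ⟨0, (1 / 5), (223607 / 500000), 1, 0, 0,
      (cornersFar B 1 [53876800000, 57280500000, 39911800, 15452600000]),
      (cornersFar B 1 [101857000000, 101947000000, 103843000000, 103821000000]),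
      [],
      [],
      [],
      [],
      [],
      [], 0⟩

def chart3p0_ok : okPiece (okFar chart3box) par ⟨0, 0, 0⟩ false none
    (remPoly ofQ yV eV wV fld fld.atoms) chart3p0 = true := by decide +kernel

/-- A piece. -/
def chart3p1 : Piece :=
  let B : Box := chart3box
  ⟨(1 / 5), (2 / 5), (79057 / 125000), 1, 0, (702573 / 1000000),
      (cornersFar B 1 [178714000000, 40645500000, 129529000000, 120717000000]),
      (cornersFar B 1 [104002000000, 104349000000, 106653000000, 106165000000]),
      [],
      [],
      [],
      [],
      [],
      (cornersFar B 2 [6369880000000, 2194800000000, 10285700000000, 1921130000000]), 0⟩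

def chart3p1_ok : okPiece (okFar chart3box) par ⟨0, 0, 0⟩ false none
    (remPoly ofQ yV eV wV fld fld.atoms) chart3p1 = true := by decide +kernel

/-- A piece. -/
def chart3p2 : Piece :=
  let B : Box := chart3box
  ⟨(2 / 5), (7 / 10), (836661 / 1000000), 1, 0, (92417 / 25000),
      (cornersFar B 1 [746866000000, 140637000000, 693780000000, 552314000000]),
      (cornersFar B 1 [101637000000, 103720000000, 104435000000, 104508000000]),
      [],
      [],
      [],
      [],
      [],
      (cornersFar B 2 [13726600000000, 3452660000000, 22953000000000, 2953850000000]), 0⟩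

def chart3p2_ok : okPiece (okFar chart3box) par ⟨0, 0, 0⟩ false none
    (remPoly ofQ yV eV wV fld fld.atoms) chart3p2 = true := by decide +kernel

/-- A piece. -/
def chart3p3 : Piece :=
  let B : Box := chart3box
  ⟨(7 / 10), 1, 1, 1, 0, (241093 / 10000),
      (cornersFar B 1 [2750010000000, 515742000000, 2930660000000, 1715860000000]),
      (cornersFar B 1 [93825900000, 102028000000, 95926400000, 100043000000]),
      [],
      [],
      [],
      [],
      [],
      (cornersFar B 2 [106523000000000, 11238000000000, 184286000000000, 8886810000000]), 0⟩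

def chart3p3_ok : okPiece (okFar chart3box) par ⟨0, 0, 0⟩ false none
    (remPoly ofQ yV eV wV fld fld.atoms) chart3p3 = true := by decide +kernel

/-- A piece. -/
def chart3p4 : Piece :=
  let B : Box := chart3box
  ⟨1, (21 / 20), (10247 / 10000), 1, 0, (14171 / 125),
      (cornersFar B 1 [2977770000000, 10382300000000, 3494510000000, 4113170000000]),
      (cornersFar B 1 [93091700000, 63811800000, 93766900000, 90817200000]),
      [],
      [],
      [],
      [],
      [],
      (cornersFar B 2 [3550390000000000, 126350000000000, 6289140000000000, 223098000000000]), 0⟩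

def chart3p4_ok : okPiece (okFar chart3box) par ⟨0, 0, 0⟩ false none
    (remPoly ofQ yV eV wV fld fld.atoms) chart3p4 = true := by decide +kernel

/-- A piece. -/
def chart3p5 : Piece :=
  let B : Box := chart3box
  ⟨(21 / 20), (6 / 5), (21909 / 20000), (561 / 500), (115111 / 1000000), (813637 / 100000),
      (cornersFar B 0 [11271400000, 3073130000, 19161200000, 13390700000]),
      (cornersFar B 2 [108170000000, 2193630000, 267090000000, 14291000000]),
      [],
      (cornersFar B 1 [6783840000, 11062500000, 13072400000, 21559800000]),
      [],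
      (cornersFar B 1 [1753580000, 1778120000, 2215800000, 2239610000]),
      [],
      (cornersFar B 2 [157742000000, 2897570000, 555091000000, 7173560000]), 0⟩

def chart3p5_ok : okPiece (okFar chart3box) par ⟨0, 0, 0⟩ false none
    (remPoly ofQ yV eV wV fld fld.atoms) chart3p5 = true := by decide +kernel

/-- A piece. -/
def chart3p6 : Piece :=
  let B : Box := chart3box
  ⟨(6 / 5), (3 / 2), (4899 / 4000), (671 / 500), (3677 / 12500), (309499 / 100000),
      (cornersFar B 0 [7820020000, 1581970000, 12308800000, 4770720000]),
      (cornersFar B 2 [55228300000, 1816820000, 164061000000, 4914390000]),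
      [],
      (cornersFar B 1 [8843980000, 11258800000, 17084200000, 22928300000]),
      [],
      (cornersFar B 1 [1790070000, 1801460000, 2275860000, 2296010000]),
      [],
      (cornersFar B 2 [38693300000, 865715000, 137433000000, 2058690000]), 0⟩

def chart3p6_ok : okPiece (okFar chart3box) par ⟨0, 0, 0⟩ false none
    (remPoly ofQ yV eV wV fld fld.atoms) chart3p6 = true := by decide +kernel

/-- A piece. -/
def chart3p7 : Piece :=
  let B : Box := chart3box
  ⟨(3 / 2), (11 / 5), (37081 / 25000), (1817 / 1000), (119437 / 200000), (26279 / 12500),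
      (cornersFar B 0 [4004730000, 1393510000, 6227830000, 3873700000]),
      (cornersFar B 2 [24157800000, 2199340000, 80255400000, 9033780000]),
      [],
      (cornersFar B 1 [10292100000, 11276500000, 20440300000, 22906700000]),
      [],
      (cornersFar B 1 [1816760000, 1821910000, 2312020000, 2314790000]),
      [],
      (cornersFar B 2 [7469760000, 595253000, 26868800000, 1984440000]), 0⟩

def chart3p7_ok : okPiece (okFar chart3box) par ⟨0, 0, 0⟩ false none
    (remPoly ofQ yV eV wV fld fld.atoms) chart3p7 = true := by decide +kernel

/-- A piece. -/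
def chart3p8 : Piece :=
  let B : Box := chart3box
  ⟨(11 / 5), 4, 2, (1483 / 500), (108721 / 100000), (933279 / 100000),
      (cornersFar B 0 [4789110000, 4092300000, 7032760000, 56794700]),
      (cornersFar B 2 [28274500000, 23741300000, 46953100000, 249521000]),
      [],
      (cornersFar B 1 [893265000, 750859000, 1484150000, 7921310]),
      (cornersFar B 1 [17988700000, 17891000000, 27189300000, 28484200000]),
      (cornersFar B 1 [770862000, 740498000, 1108890000, 33251800]),
      (cornersFar B 1 [1186070000, 1200530000, 1499600000, 1615530000]),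
      (cornersFar B 2 [198993000000, 179966000000, 278740000000, 167864000000]), 0⟩

def chart3p8_ok : okPiece (okFar chart3box) par ⟨0, 0, 0⟩ false none
    (remPoly ofQ yV eV wV fld fld.atoms) chart3p8 = true := by decide +kernel

/-- A piece. -/
def chart3p9 : Piece :=
  let B : Box := chart3box
  ⟨4, 8, (282843 / 100000), (5657 / 1000), (173289 / 100000), (60877 / 5000),
      (cornersFar B 0 [2013660000, 1640980000, 3336340000, 102814000]),
      (cornersFar B 2 [18775200000, 13995500000, 36574700000, 541346000]),
      [],
      (cornersFar B 1 [594950000, 443861000, 1157540000, 17147700]),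
      (cornersFar B 1 [14710800000, 14742900000, 24962200000, 26587300000]),
      (cornersFar B 1 [149838000, 138694000, 218985000, 21894100]),
      (cornersFar B 1 [227134000, 231859000, 284712000, 312849000]),
      (cornersFar B 2 [70894400000, 55221000000, 127819000000, 59579500000]), 0⟩

def chart3p9_ok : okPiece (okFar chart3box) par ⟨0, 0, 0⟩ false none
    (remPoly ofQ yV eV wV fld fld.atoms) chart3p9 = true := by decide +kernel

def chart3_big : (bigExprs par (remPoly ofQ yV eV wV fld fld.atoms)).all (okFar chart3box) = true := by decide +kernel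

/-- A row. -/
def chart3 : ChartRow := ⟨chart3box, [chart3p0, chart3p1, chart3p2, chart3p3, chart3p4, chart3p5, chart3p6, chart3p7, chart3p8, chart3p9]⟩

def chart3_ok : chart3.ok par fld = true :=
  ChartRow.ok_of (by decide +kernel)
    (List.forall_mem_cons.2 ⟨chart3p0_ok, List.forall_mem_cons.2 ⟨chart3p1_ok, List.forall_mem_cons.2 ⟨chart3p2_ok, List.forall_mem_cons.2 ⟨chart3p3_ok, List.forall_mem_cons.2 ⟨chart3p4_ok, List.forall_mem_cons.2 ⟨chart3p5_ok, List.forall_mem_cons.2 ⟨chart3p6_ok, List.forall_mem_cons.2 ⟨chart3p7_ok, List.forall_mem_cons.2 ⟨chart3p8_ok, List.forall_mem_cons.2 ⟨chart3p9_ok, List.forall_mem_nil _⟩⟩⟩⟩⟩⟩⟩⟩⟩⟩)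
    chart3_big

/-- The rows of this file. -/
def chart003_list : List ChartRow := [chart3]

theorem chart003_list_ok : ∀ R ∈ chart003_list, R.ok par fld = true := by
  simp [chart003_list, chart3_ok]

end Vale.Agent.P237.Petty.Cor.Band.A
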