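import Vale.Agent.P237.Petty.Cor.Band.A.Par

/-!
# P237: some rows of the lower band, checked by the kernel
-/

set_option linter.style.longLine false

namespace Vale.Agent.P237.Petty.Cor.Band.A

/-- The box of a row. -/
def chart4box : Box := ⟨(11 / 100), (11 / 50), (1 / 8), 1, (297 / 2000), (9 / 20)⟩

/-- A piece. -/
def chart4p0 : Piece :=
  let B : Box := chart4box
  ⟨0, (1 / 5), (223607 / 500000), 1, 0, 0,
      (cornersFar B 2 [26734800000, 25835600000, 17411900000, 15094100000]),
      (cornersFar B 1 [93553800000, 92356200000, 96636200000, 95293900000]),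
      [],
      [],
      [],
      [],
      [],
      (cornersFar B 2 [1675710000000, 1568040000000, 1547950000000, 1405660000000]), 0⟩

def chart4p0_ok : okPiece (okFar chart4box) par ⟨0, 0, 0⟩ false none
    (remPoly ofQ yV eV wV fld fld.atoms) chart4p0 = true := by decide +kernel

/-- A piece. -/
def chart4p1 : Piece :=
  let B : Box := chart4box
  ⟨(1 / 5), (2 / 5), (79057 / 125000), 1, 0, (6689 / 6250),
      (cornersFar B 2 [37253600000, 35807000000, 30314300000, 10383500000]),
      (cornersFar B 1 [93294000000, 92080000000, 96278900000, 95416100000]),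
      [],
      [],
      [],
      [],
      [],
      (cornersFar B 2 [2083600000000, 1989060000000, 1927910000000, 1798580000000]), 0⟩

def chart4p1_ok : okPiece (okFar chart4box) par ⟨0, 0, 0⟩ false none
    (remPoly ofQ yV eV wV fld fld.atoms) chart4p1 = true := by decide +kernel

/-- A piece. -/
def chart4p2 : Piece :=
  let B : Box := chart4box
  ⟨(2 / 5), (7 / 10), (836661 / 1000000), 1, 0, (5069 / 4000),
      (cornersFar B 2 [53941200000, 51523500000, 54117400000, 19417500000]),
      (cornersFar B 1 [92843500000, 91653900000, 95546200000, 95160600000]),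
      [],
      [],
      [],
      [],
      [],
      (cornersFar B 2 [3214620000000, 3075050000000, 3027570000000, 2787630000000]), 0⟩

def chart4p2_ok : okPiece (okFar chart4box) par ⟨0, 0, 0⟩ false none
    (remPoly ofQ yV eV wV fld fld.atoms) chart4p2 = true := by decide +kernel

/-- A piece. -/
def chart4p3 : Piece :=
  let B : Box := chart4box
  ⟨(7 / 10), 1, 1, 1, 0, (78729 / 25000),
      (cornersFar B 2 [107325000000, 99066500000, 159717000000, 110100000000]),
      (cornersFar B 1 [91204100000, 90315700000, 92362700000, 92631500000]),
      [],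
      [],
      [],
      [],
      [],
      (cornersFar B 2 [9854560000000, 9123900000000, 9913190000000, 8113090000000]), 0⟩

def chart4p3_ok : okPiece (okFar chart4box) par ⟨0, 0, 0⟩ false none
    (remPoly ofQ yV eV wV fld fld.atoms) chart4p3 = true := by decide +kernel

/-- A piece. -/
def chart4p4 : Piece :=
  let B : Box := chart4box
  ⟨1, (21 / 20), (10247 / 10000), 1, 0, (876521 / 1000000),
      (cornersFar B 2 [3218120000000, 3285690000000, 2871030000000, 3357980000000]),
      (cornersFar B 1 [2120250000, 12997200, 15710700000, 2092560000]),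
      [],
      [],
      [],
      [],
      [],
      (cornersFar B 2 [29733200000000, 6372100000000, 41966700000000, 6169890000000]), 0⟩

def chart4p4_ok : okPiece (okFar chart4box) par ⟨0, 0, 0⟩ false none
    (remPoly ofQ yV eV wV fld fld.atoms) chart4p4 = true := by decide +kernel

/-- A piece. -/
def chart4p5 : Piece :=
  let B : Box := chart4box
  ⟨(21 / 20), (6 / 5), (21909 / 20000), (561 / 500), (115111 / 1000000), (242119 / 1000000),
      (cornersFar B 2 [89862000, 82544000, 104433000, 98697000]),
      (cornersFar B 2 [3492190000, 275278000, 10196700000, 521502000]),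
      [],
      (cornersFar B 1 [10596000000, 10769200000, 21997700000, 22456700000]),
      (cornersFar B 1 [2057810, 77547, 5413100, 109468]),
      (cornersFar B 1 [1556980000, 1175220000, 1948470000, 1742920000]),
      (cornersFar B 1 [548082000, 55002600, 1054630000, 98394900]),
      (cornersFar B 2 [16031900000, 7673550000, 47344100000, 14307300000]), 0⟩

def chart4p5_ok : okPiece (okFar chart4box) par ⟨0, 0, 0⟩ false none
    (remPoly ofQ yV eV wV fld fld.atoms) chart4p5 = true := by decide +kernel

/-- A piece. -/
def chart4p6 : Piece :=
  let B : Box := chart4box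
  ⟨(6 / 5), (3 / 2), (4899 / 4000), (671 / 500), (3677 / 12500), (791677 / 10000000),
      (cornersFar B 2 [23586300, 22847200, 21881300, 18210400]),
      (cornersFar B 2 [3757150000, 2008560000, 8411790000, 262201000]),
      [],
      (cornersFar B 1 [10683600000, 10691500000, 22192300000, 22523600000]),
      (cornersFar B 1 [10864900, 4792140, 18247300, 317520]),
      (cornersFar B 1 [1433920000, 1480070000, 1854430000, 1977210000]),
      (cornersFar B 1 [709262000, 484349000, 1081080000, 65695500]),
      (cornersFar B 2 [14854700000, 12039300000, 30786400000, 17195900000]), 0⟩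

def chart4p6_ok : okPiece (okFar chart4box) par ⟨0, 0, 0⟩ false none
    (remPoly ofQ yV eV wV fld fld.atoms) chart4p6 = true := by decide +kernel

/-- A piece. -/
def chart4p7 : Piece :=
  let B : Box := chart4box
  ⟨(3 / 2), (11 / 5), (37081 / 25000), (1817 / 1000), (119437 / 200000), (32767 / 2000000),
      (cornersFar B 2 [4653610, 4608610, 1540440, 1459750]),
      (cornersFar B 2 [8471930000, 12261400000, 4331350000, 94456900]),
      [],
      (cornersFar B 1 [2666000000, 562610000, 21724500000, 22488700000]),
      (cornersFar B 1 [7735350000, 10872000000, 643378000, 1576750]),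
      (cornersFar B 1 [1426330000, 1373630000, 1596770000, 1870110000]),
      (cornersFar B 1 [1384140000, 1482670000, 1353250000, 118613000]),
      (cornersFar B 2 [133317000000, 204782000000, 25832300000, 14383100000]), 0⟩

def chart4p7_ok : okPiece (okFar chart4box) par ⟨0, 0, 0⟩ false none
    (remPoly ofQ yV eV wV fld fld.atoms) chart4p7 = true := by decide +kernel

/-- A piece. -/
def chart4p8 : Piece :=
  let B : Box := chart4box
  ⟨(11 / 5), 4, 2, (1483 / 500), (108721 / 100000), (6662 / 15625),
      (cornersFar B 2 [25889500, 26281700, 31647200, 13670700]),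
      (cornersFar B 2 [24542700000, 21101700000, 40690600000, 662026000]),
      [],
      (cornersFar B 1 [823597000, 714661000, 1372630000, 23512300]),
      (cornersFar B 1 [19407900000, 19081200000, 28379500000, 27446500000]),
      (cornersFar B 1 [875657000, 835882000, 1303480000, 93582500]),
      (cornersFar B 1 [1523350000, 1535120000, 1930200000, 2052160000]),
      (cornersFar B 2 [194437000000, 182379000000, 268565000000, 169988000000]), 0⟩

def chart4p8_ok : okPiece (okFar chart4box) par ⟨0, 0, 0⟩ false none
    (remPoly ofQ yV eV wV fld fld.atoms) chart4p8 = true := by decide +kernel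

/-- A piece. -/
def chart4p9 : Piece :=
  let B : Box := chart4box
  ⟨4, 8, (282843 / 100000), (5657 / 1000), (173289 / 100000), (94817 / 250000),
      (cornersFar B 2 [19741700, 19961200, 23989500, 12820600]),
      (cornersFar B 2 [37461300000, 31613700000, 52835100000, 958577000]),
      [],
      (cornersFar B 1 [1269710000, 1080040000, 1788520000, 33210300]),
      (cornersFar B 1 [39612900000, 39016400000, 47451300000, 42108600000]),
      (cornersFar B 1 [604086000, 553500000, 855502000, 36162100]),
      (cornersFar B 1 [1511770000, 1520510000, 1911200000, 2001160000]),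
      (cornersFar B 2 [181348000000, 167951000000, 212410000000, 112064000000]), 0⟩

def chart4p9_ok : okPiece (okFar chart4box) par ⟨0, 0, 0⟩ false none
    (remPoly ofQ yV eV wV fld fld.atoms) chart4p9 = true := by decide +kernel

def chart4_big : (bigExprs par (remPoly ofQ yV eV wV fld fld.atoms)).all (okFar chart4box) = true := by decide +kernel

/-- A row. -/
def chart4 : ChartRow := ⟨chart4box, [chart4p0, chart4p1, chart4p2, chart4p3, chart4p4, chart4p5, chart4p6, chart4p7, chart4p8, chart4p9]⟩

def chart4_ok : chart4.ok par fld = true :=
  ChartRow.ok_of (by decide +kernel)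
    (List.forall_mem_cons.2 ⟨chart4p0_ok, List.forall_mem_cons.2 ⟨chart4p1_ok, List.forall_mem_cons.2 ⟨chart4p2_ok, List.forall_mem_cons.2 ⟨chart4p3_ok, List.forall_mem_cons.2 ⟨chart4p4_ok, List.forall_mem_cons.2 ⟨chart4p5_ok, List.forall_mem_cons.2 ⟨chart4p6_ok, List.forall_mem_cons.2 ⟨chart4p7_ok, List.forall_mem_cons.2 ⟨chart4p8_ok, List.forall_mem_cons.2 ⟨chart4p9_ok, List.forall_mem_nil _⟩⟩⟩⟩⟩⟩⟩⟩⟩⟩)
    chart4_big

/-- The rows of this file. -/
def chart004_list : List ChartRow := [chart4]

theorem chart004_list_ok : ∀ R ∈ chart004_list, R.ok par fld = true := by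
  simp [chart004_list, chart4_ok]

end Vale.Agent.P237.Petty.Cor.Band.A
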