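import Vale.Agent.P237.Petty.Cor.Band.A.Par

/-!
# P237: some rows of the lower band, checked by the kernel
-/

set_option linter.style.longLine false

namespace Vale.Agent.P237.Petty.Cor.Band.A

/-- The box of a row. -/
def chart5box : Box := ⟨(11 / 50), (11 / 25), 0, (1 / 8), (297 / 2000), (9 / 20)⟩

/-- A piece. -/
def chart5p0 : Piece :=
  let B : Box := chart5box
  ⟨0, (1 / 5), (223607 / 500000), 1, 0, 0,
      (cornersFar B 1 [46539700000, 44321200000, 6761810000, 6728200000]),
      (cornersFar B 1 [106990000000, 106590000000, 112533000000, 112253000000]),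
      [],
      [],
      [],
      [],
      [],
      (cornersFar B 2 [6683020000000, 1759140000000, 8482350000000, 1146860000000]), 0⟩

def chart5p0_ok : okPiece (okFar chart5box) par ⟨0, 0, 0⟩ false none
    (remPoly ofQ yV eV wV fld fld.atoms) chart5p0 = true := by decide +kernel

/-- A piece. -/
def chart5p1 : Piece :=
  let B : Box := chart5box
  ⟨(1 / 5), (2 / 5), (79057 / 125000), 1, 0, (675513 / 100000),
      (cornersFar B 1 [345234000000, 91243300000, 278351000000, 234853000000]),
      (cornersFar B 1 [105747000000, 106674000000, 111484000000, 111394000000]),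
      [],
      [],
      [],
      [],
      [],
      (cornersFar B 2 [9731540000000, 2158510000000, 13313300000000, 1534950000000]), 0⟩

def chart5p1_ok : okPiece (okFar chart5box) par ⟨0, 0, 0⟩ false none
    (remPoly ofQ yV eV wV fld fld.atoms) chart5p1 = true := by decide +kernel

/-- A piece. -/
def chart5p2 : Piece :=
  let B : Box := chart5box
  ⟨(2 / 5), (7 / 10), (836661 / 1000000), 1, 0, (72273 / 5000),
      (cornersFar B 1 [1158170000000, 250286000000, 1069170000000, 766327000000]),
      (cornersFar B 1 [102604000000, 105948000000, 108490000000, 109357000000]),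
      [],
      [],
      [],
      [],
      [],
      (cornersFar B 2 [22083900000000, 3588210000000, 30772800000000, 2477120000000]), 0⟩

def chart5p2_ok : okPiece (okFar chart5box) par ⟨0, 0, 0⟩ false none
    (remPoly ofQ yV eV wV fld fld.atoms) chart5p2 = true := by decide +kernel

/-- A piece. -/
def chart5p3 : Piece :=
  let B : Box := chart5box
  ⟨(7 / 10), 1, 1, 1, 0, (723343 / 10000),
      (cornersFar B 1 [2611540000000, 714071000000, 2453370000000, 1721240000000]),
      (cornersFar B 1 [97052600000, 103991000000, 103273000000, 105696000000]),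
      [],
      [],
      [],
      [],
      [],
      (cornersFar B 2 [184132000000000, 15971400000000, 261364000000000, 11703500000000]), 0⟩

def chart5p3_ok : okPiece (okFar chart5box) par ⟨0, 0, 0⟩ false none
    (remPoly ofQ yV eV wV fld fld.atoms) chart5p3 = true := by decide +kernel

/-- A piece. -/
def chart5p4 : Piece :=
  let B : Box := chart5box
  ⟨1, (21 / 20), (10247 / 10000), 1, 0, (103163 / 200),
      (cornersFar B 1 [2686740000000, 6482700000000, 2458050000000, 5751190000000]),
      (cornersFar B 1 [96832300000, 81682400000, 103315000000, 90215300000]),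
      [],
      [],
      [],
      [],
      [],
      (cornersFar B 2 [6348930000000000, 226491000000000, 9075810000000000, 105115000000000]), 0⟩

def chart5p4_ok : okPiece (okFar chart5box) par ⟨0, 0, 0⟩ false none
    (remPoly ofQ yV eV wV fld fld.atoms) chart5p4 = true := by decide +kernel

/-- A piece. -/
def chart5p5 : Piece :=
  let B : Box := chart5box
  ⟨(21 / 20), (6 / 5), (21909 / 20000), (561 / 500), (115111 / 1000000), (405619 / 10000),
      (cornersFar B 0 [19833400000, 13642400000, 32266400000, 18949900000]),
      (cornersFar B 2 [279056000000, 16715400000, 653204000000, 20985300000]),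
      [],
      (cornersFar B 1 [12553700000, 21420600000, 25724000000, 46935600000]),
      [],
      (cornersFar B 1 [1725180000, 1625780000, 2172680000, 2152810000]),
      [],
      (cornersFar B 2 [575012000000, 17583600000, 1668080000000, 11113800000]), 0⟩

def chart5p5_ok : okPiece (okFar chart5box) par ⟨0, 0, 0⟩ false none
    (remPoly ofQ yV eV wV fld fld.atoms) chart5p5 = true := by decide +kernel

/-- A piece. -/
def chart5p6 : Piece :=
  let B : Box := chart5box
  ⟨(6 / 5), (3 / 2), (4899 / 4000), (671 / 500), (3677 / 12500), (6404 / 625),
      (cornersFar B 0 [16441600000, 5341240000, 25387000000, 10052700000]),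
      (cornersFar B 2 [181779000000, 7794690000, 492183000000, 11536000000]),
      [],
      (cornersFar B 1 [15972000000, 22736400000, 31532000000, 48336900000]),
      [],
      (cornersFar B 1 [1755420000, 1702580000, 2221110000, 2221040000]),
      [],
      (cornersFar B 2 [139916000000, 4223500000, 410866000000, 2666230000]), 0⟩

def chart5p6_ok : okPiece (okFar chart5box) par ⟨0, 0, 0⟩ false none
    (remPoly ofQ yV eV wV fld fld.atoms) chart5p6 = true := by decide +kernel

/-- A piece. -/
def chart5p7 : Piece :=
  let B : Box := chart5box
  ⟨(3 / 2), (11 / 5), (37081 / 25000), (1817 / 1000), (119437 / 200000), (585159 / 100000),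
      (cornersFar B 0 [9895330000, 3253970000, 14800600000, 9381540000]),
      (cornersFar B 2 [86808600000, 7171160000, 274581000000, 26839900000]),
      [],
      (cornersFar B 1 [19728100000, 23025700000, 39575000000, 47922200000]),
      [],
      (cornersFar B 1 [1792830000, 1772900000, 2276270000, 2264810000]),
      [],
      (cornersFar B 2 [25871300000, 1590210000, 77153800000, 3411490000]), 0⟩

def chart5p7_ok : okPiece (okFar chart5box) par ⟨0, 0, 0⟩ false none
    (remPoly ofQ yV eV wV fld fld.atoms) chart5p7 = true := by decide +kernel

/-- A piece. -/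
def chart5p8 : Piece :=
  let B : Box := chart5box
  ⟨(11 / 5), 4, 2, (1483 / 500), (108721 / 100000), (345377 / 10000),
      (cornersFar B 0 [9948420000, 9176120000, 15548200000, 441645000]),
      (cornersFar B 2 [54000500000, 49834500000, 97385300000, 1791540000]),
      [],
      (cornersFar B 1 [1705100000, 1574690000, 3092580000, 57876900]),
      (cornersFar B 1 [28953100000, 29022600000, 46323600000, 52048400000]),
      (cornersFar B 1 [1155160000, 1147730000, 1696600000, 486304000]),
      (cornersFar B 1 [1504310000, 1521230000, 1886130000, 2035890000]),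
      (cornersFar B 2 [317943000000, 303924000000, 328756000000, 246331000000]), 0⟩

def chart5p8_ok : okPiece (okFar chart5box) par ⟨0, 0, 0⟩ false none
    (remPoly ofQ yV eV wV fld fld.atoms) chart5p8 = true := by decide +kernel

/-- A piece. -/
def chart5p9 : Piece :=
  let B : Box := chart5box
  ⟨4, 8, (282843 / 100000), (5657 / 1000), (173289 / 100000), (308703 / 10000),
      (cornersFar B 0 [6867530000, 5814340000, 10596700000, 296051000]),
      (cornersFar B 2 [54247100000, 44370400000, 90872600000, 1493290000]),
      [],
      (cornersFar B 1 [1714280000, 1403500000, 2869710000, 47270400]),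
      (cornersFar B 1 [36776000000, 36770300000, 54940600000, 58444400000]),
      (cornersFar B 1 [546398000, 517518000, 812796000, 81685600]),
      (cornersFar B 1 [856792000, 869936000, 1078700000, 1172830000]),
      (cornersFar B 2 [191795000000, 165743000000, 228277000000, 118883000000]), 0⟩

def chart5p9_ok : okPiece (okFar chart5box) par ⟨0, 0, 0⟩ false none
    (remPoly ofQ yV eV wV fld fld.atoms) chart5p9 = true := by decide +kernel

def chart5_big : (bigExprs par (remPoly ofQ yV eV wV fld fld.atoms)).all (okFar chart5box) = true := by decide +kernel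

/-- A row. -/
def chart5 : ChartRow := ⟨chart5box, [chart5p0, chart5p1, chart5p2, chart5p3, chart5p4, chart5p5, chart5p6, chart5p7, chart5p8, chart5p9]⟩

def chart5_ok : chart5.ok par fld = true :=
  ChartRow.ok_of (by decide +kernel)
    (List.forall_mem_cons.2 ⟨chart5p0_ok, List.forall_mem_cons.2 ⟨chart5p1_ok, List.forall_mem_cons.2 ⟨chart5p2_ok, List.forall_mem_cons.2 ⟨chart5p3_ok, List.forall_mem_cons.2 ⟨chart5p4_ok, List.forall_mem_cons.2 ⟨chart5p5_ok, List.forall_mem_cons.2 ⟨chart5p6_ok, List.forall_mem_cons.2 ⟨chart5p7_ok, List.forall_mem_cons.2 ⟨chart5p8_ok, List.forall_mem_cons.2 ⟨chart5p9_ok, List.forall_mem_nil _⟩⟩⟩⟩⟩⟩⟩⟩⟩⟩)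
    chart5_big

/-- The rows of this file. -/
def chart005_list : List ChartRow := [chart5]

theorem chart005_list_ok : ∀ R ∈ chart005_list, R.ok par fld = true := by
  simp [chart005_list, chart5_ok]

end Vale.Agent.P237.Petty.Cor.Band.A
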