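import Vale.Agent.P237.Petty.Cor.Band.A.Par

/-!
# P237: some rows of the lower band, checked by the kernel
-/

set_option linter.style.longLine false

namespace Vale.Agent.P237.Petty.Cor.Band.A

/-- The box of a row. -/
def chart6box : Box := ⟨(11 / 50), (11 / 25), (1 / 8), 1, (297 / 2000), (9 / 20)⟩

/-- A piece. -/
def chart6p0 : Piece :=
  let B : Box := chart6box
  ⟨0, (1 / 5), (223607 / 500000), 1, 0, 0,
      (cornersFar B 2 [10148000000, 10084000000, 1575930000, 1419350000]),
      (cornersFar B 1 [96844600000, 95825500000, 102997000000, 101488000000]),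
      [],
      [],
      [],
      [],
      [],
      (cornersFar B 2 [1552160000000, 1452670000000, 1189630000000, 1068620000000]), 0⟩

def chart6p0_ok : okPiece (okFar chart6box) par ⟨0, 0, 0⟩ false none
    (remPoly ofQ yV eV wV fld fld.atoms) chart6p0 = true := by decide +kernel

/-- A piece. -/
def chart6p1 : Piece :=
  let B : Box := chart6box
  ⟨(1 / 5), (2 / 5), (79057 / 125000), 1, 0, (8741 / 5000),
      (cornersFar B 2 [21427400000, 21069400000, 15662600000, 7612150000]),
      (cornersFar B 1 [96575000000, 95558600000, 102575000000, 101318000000]),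
      [],
      [],
      [],
      [],
      [],
      (cornersFar B 2 [1907040000000, 1826820000000, 1498750000000, 1365270000000]), 0⟩

def chart6p1_ok : okPiece (okFar chart6box) par ⟨0, 0, 0⟩ false none
    (remPoly ofQ yV eV wV fld fld.atoms) chart6p1 = true := by decide +kernel

/-- A piece. -/
def chart6p2 : Piece :=
  let B : Box := chart6box
  ⟨(2 / 5), (7 / 10), (836661 / 1000000), 1, 0, (113351 / 50000),
      (cornersFar B 2 [40333500000, 38799200000, 40875700000, 17955900000]),
      (cornersFar B 1 [96003600000, 95080600000, 101794000000, 101035000000]),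
      [],
      [],
      [],
      [],
      [],
      (cornersFar B 2 [2974510000000, 2832870000000, 2420490000000, 2117810000000]), 0⟩

def chart6p2_ok : okPiece (okFar chart6box) par ⟨0, 0, 0⟩ false none
    (remPoly ofQ yV eV wV fld fld.atoms) chart6p2 = true := by decide +kernel

/-- A piece. -/
def chart6p3 : Piece :=
  let B : Box := chart6box
  ⟨(7 / 10), 1, 1, 1, 0, (317993 / 50000),
      (cornersFar B 2 [99707200000, 89500700000, 144046000000, 114657000000]),
      (cornersFar B 1 [94082200000, 93628400000, 98731300000, 98408400000]),
      [],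
      [],
      [],
      [],
      [],
      (cornersFar B 2 [9565870000000, 8594830000000, 8598600000000, 6154540000000]), 0⟩

def chart6p3_ok : okPiece (okFar chart6box) par ⟨0, 0, 0⟩ false none
    (remPoly ofQ yV eV wV fld fld.atoms) chart6p3 = true := by decide +kernel

/-- A piece. -/
def chart6p4 : Piece :=
  let B : Box := chart6box
  ⟨1, (21 / 20), (10247 / 10000), 1, 0, (19097 / 10000),
      (cornersFar B 2 [2769260000000, 2950860000000, 1297490000000, 2096300000000]),
      (cornersFar B 1 [18662100000, 13538500000, 66415000000, 44602700000]),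
      [],
      [],
      [],
      [],
      [],
      (cornersFar B 2 [53359800000000, 41115000000000, 50774400000000, 19009400000000]), 0⟩

def chart6p4_ok : okPiece (okFar chart6box) par ⟨0, 0, 0⟩ false none
    (remPoly ofQ yV eV wV fld fld.atoms) chart6p4 = true := by decide +kernel

/-- A piece. -/
def chart6p5 : Piece :=
  let B : Box := chart6box
  ⟨(21 / 20), (6 / 5), (21909 / 20000), (561 / 500), (115111 / 1000000), (422723 / 500000),
      (cornersFar B 2 [204504000, 195606000, 251497000, 257024000]),
      (cornersFar B 2 [9474740000, 3622560000, 31029100000, 996989000]),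
      [],
      (cornersFar B 1 [21883300000, 22078900000, 46913500000, 48288200000]),
      (cornersFar B 1 [4988320, 1276860, 10274900, 93844]),
      (cornersFar B 1 [1419910000, 1074610000, 1828220000, 1749930000]),
      (cornersFar B 1 [755547000, 354926000, 1541780000, 125943000]),
      (cornersFar B 2 [42104100000, 14745500000, 121796000000, 22005400000]), 0⟩

def chart6p5_ok : okPiece (okFar chart6box) par ⟨0, 0, 0⟩ false none
    (remPoly ofQ yV eV wV fld fld.atoms) chart6p5 = true := by decide +kernel

/-- A piece. -/
def chart6p6 : Piece :=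
  let B : Box := chart6box
  ⟨(6 / 5), (3 / 2), (4899 / 4000), (671 / 500), (3677 / 12500), (117061 / 1000000),
      (cornersFar B 2 [23415000, 23020500, 15822800, 13651400]),
      (cornersFar B 2 [9446710000, 4373800000, 23680700000, 212328000]),
      [],
      (cornersFar B 1 [22096400000, 22174700000, 47502800000, 48542900000]),
      (cornersFar B 1 [17457100, 6266140, 24367200, 108188]),
      (cornersFar B 1 [1416320000, 1340920000, 1878820000, 1956040000]),
      (cornersFar B 1 [862486000, 553175000, 1402320000, 31647600]),
      (cornersFar B 2 [31069900000, 21253000000, 61975400000, 26534100000]), 0⟩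

def chart6p6_ok : okPiece (okFar chart6box) par ⟨0, 0, 0⟩ false none
    (remPoly ofQ yV eV wV fld fld.atoms) chart6p6 = true := by decide +kernel

/-- A piece. -/
def chart6p7 : Piece :=
  let B : Box := chart6box
  ⟨(3 / 2), (11 / 5), (37081 / 25000), (1817 / 1000), (119437 / 200000), (66239 / 500000),
      (cornersFar B 2 [13041800, 12988900, 6275210, 5946880]),
      (cornersFar B 2 [10104500000, 5663330000, 22317300000, 365415000]),
      [],
      (cornersFar B 1 [21624500000, 22020500000, 47628600000, 48508100000]),
      (cornersFar B 1 [600668000, 148735000, 129831000, 848181]),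
      (cornersFar B 1 [1376620000, 1366380000, 1841330000, 1976360000]),
      (cornersFar B 1 [1115220000, 972799000, 1530160000, 91425700]),
      (cornersFar B 2 [24997000000, 17784800000, 33458300000, 21366800000]), 0⟩

def chart6p7_ok : okPiece (okFar chart6box) par ⟨0, 0, 0⟩ false none
    (remPoly ofQ yV eV wV fld fld.atoms) chart6p7 = true := by decide +kernel

/-- A piece. -/
def chart6p8 : Piece :=
  let B : Box := chart6box
  ⟨(11 / 5), 4, 2, (1483 / 500), (108721 / 100000), (12777 / 31250),
      (cornersFar B 2 [23322700, 23524000, 24578300, 17025700]),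
      (cornersFar B 2 [45503400000, 43583800000, 78690900000, 1059050000]),
      [],
      (cornersFar B 1 [1514970000, 1457050000, 2783990000, 45907100]),
      (cornersFar B 1 [28693200000, 28697200000, 46864900000, 49852500000]),
      (cornersFar B 1 [1147940000, 1143830000, 1740190000, 425129000]),
      (cornersFar B 1 [1529540000, 1540150000, 1938280000, 2058480000]),
      (cornersFar B 2 [289459000000, 287253000000, 301522000000, 250512000000]), 0⟩

def chart6p8_ok : okPiece (okFar chart6box) par ⟨0, 0, 0⟩ false none
    (remPoly ofQ yV eV wV fld fld.atoms) chart6p8 = true := by decide +kernel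

/-- A piece. -/
def chart6p9 : Piece :=
  let B : Box := chart6box
  ⟨4, 8, (282843 / 100000), (5657 / 1000), (173289 / 100000), (13543 / 40000),
      (cornersFar B 2 [16615200, 16804100, 18145000, 10564900]),
      (cornersFar B 2 [58508200000, 50422800000, 91764500000, 768686000]),
      [],
      (cornersFar B 1 [1951600000, 1696040000, 3058380000, 26532000]),
      (cornersFar B 1 [48425300000, 47766500000, 63748600000, 61953000000]),
      (cornersFar B 1 [813610000, 768824000, 1261600000, 43249600]),
      (cornersFar B 1 [1530200000, 1541190000, 1953680000, 2074440000]),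
      (cornersFar B 2 [234358000000, 218633000000, 251853000000, 140965000000]), 0⟩

def chart6p9_ok : okPiece (okFar chart6box) par ⟨0, 0, 0⟩ false none
    (remPoly ofQ yV eV wV fld fld.atoms) chart6p9 = true := by decide +kernel

def chart6_big : (bigExprs par (remPoly ofQ yV eV wV fld fld.atoms)).all (okFar chart6box) = true := by decide +kernel

/-- A row. -/
def chart6 : ChartRow := ⟨chart6box, [chart6p0, chart6p1, chart6p2, chart6p3, chart6p4, chart6p5, chart6p6, chart6p7, chart6p8, chart6p9]⟩

def chart6_ok : chart6.ok par fld = true :=
  ChartRow.ok_of (by decide +kernel)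
    (List.forall_mem_cons.2 ⟨chart6p0_ok, List.forall_mem_cons.2 ⟨chart6p1_ok, List.forall_mem_cons.2 ⟨chart6p2_ok, List.forall_mem_cons.2 ⟨chart6p3_ok, List.forall_mem_cons.2 ⟨chart6p4_ok, List.forall_mem_cons.2 ⟨chart6p5_ok, List.forall_mem_cons.2 ⟨chart6p6_ok, List.forall_mem_cons.2 ⟨chart6p7_ok, List.forall_mem_cons.2 ⟨chart6p8_ok, List.forall_mem_cons.2 ⟨chart6p9_ok, List.forall_mem_nil _⟩⟩⟩⟩⟩⟩⟩⟩⟩⟩)
    chart6_big

/-- The rows of this file. -/
def chart006_list : List ChartRow := [chart6]

theorem chart006_list_ok : ∀ R ∈ chart006_list, R.ok par fld = true := by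
  simp [chart006_list, chart6_ok]

end Vale.Agent.P237.Petty.Cor.Band.A
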