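import Vale.Agent.P237.Petty.Cor.Band.A.Par

/-!
# P237: some rows of the lower band, checked by the kernel
-/

set_option linter.style.longLine false

namespace Vale.Agent.P237.Petty.Cor.Band.A

/-- A row. -/
def rows0 : Row :=
  let B : Box := ⟨0, (1 / 32), 0, (1 / 198), (297 / 2000), (9 / 20)⟩
  ⟨B, .ser (1000001 / 1000000) (16771317 / 50000000) (10001579 / 10000000), .near (204631 / 100000), (25117 / 25000), [
    ⟨0, 1, 1, 1, 0, 0,
      (corners B [127933000, 72195700, 16722000, 6787950, 107175000, 56427600, 16787400, 2014770]),
      (corners B [3692820, 762084]),
      (corners B [155809000, 121651000]),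
      [],
      [],
      [],
      [],
      (corners B [1054290000, 1003500000]), 0⟩,
    ⟨1, (25117 / 25000), (50117 / 50000), 1, 0, (1751 / 2000000000),
      (corners B [1149980000, 1007160000, 1079880000, 991282000, 1137910000, 942920000, 1056270000, 922531000]),
      (corners B [977734, 3990]),
      (corners B [244161000, 198230000]),
      (corners B [89552900, 18956600]),
      [],
      [],
      [],
      (corners B [535242000, 1708690]), (204631 / 100000)⟩]⟩

def rows0_ok : rows0.ok par fld = true := by decide +kernel

/-- A row. -/
def rows1 : Row :=
  let B : Box := ⟨(1 / 32), (1 / 16), 0, (1 / 198), (297 / 2000), (9 / 20)⟩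
  ⟨B, .ser (999869 / 1000000) (8491257 / 25000000) (5001579 / 5000000), .near (104489 / 50000), (100477 / 100000), [
    ⟨0, 1, 1, 1, 0, 0,
      (corners B [139943000, 72781300, 43066700, 14459900, 120040000, 34813400, 42122600, 560717]),
      (corners B [8138390, 261743]),
      (corners B [795643000, 608317000]),
      [],
      [],
      [],
      [],
      (corners B [729608000, 466565000]), 0⟩,
    ⟨1, (100477 / 100000), (100239 / 100000), 1, 0, (963 / 2500000000),
      (corners B [919543000, 509471000, 845693000, 460836000, 894703000, 438201000, 810537000, 382096000]),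
      (corners B [1026030, 1741]),
      (corners B [732677000, 682833000]),
      (corners B [118381000, 14545800]),
      [],
      [],
      [],
      (corners B [585143000, 749345]), (104489 / 50000)⟩]⟩

def rows1_ok : rows1.ok par fld = true := by decide +kernel

/-- A row. -/
def rows2 : Row :=
  let B : Box := ⟨0, (1 / 16), (1 / 198), (1 / 99), (297 / 2000), (9 / 20)⟩
  ⟨B, .ser (1000001 / 1000000) (6750803 / 20000000) (5003159 / 5000000), .near (52361 / 25000), (20191 / 20000), [
    ⟨0, 1, 1, 1, 0, 0,
      (corners B [239303000, 138468000, 25710700, 14449000, 213276000, 108952000, 23160400, 277896]),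
      (corners B [5709090, 138192]),
      (corners B [381401000, 306566000]),
      [],
      [],
      [],
      [],
      (corners B [851185000, 705258000]), 0⟩,
    ⟨1, (20191 / 20000), (100477 / 100000), 1, 0, (18789 / 10000000000),
      (corners B [1025350000, 575889000, 850358000, 474807000, 1003470000, 518942000, 815982000, 396087000]),
      (corners B [570642, 8222]),
      (corners B [652446000, 629487000]),
      (corners B [35984000, 402414]),
      [],
      [],
      [],
      (corners B [180526000, 3369700]), (52361 / 25000)⟩]⟩

def rows2_ok : rows2.ok par fld = true := by decide +kernel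

/-- A row. -/
def rows3 : Row :=
  let B : Box := ⟨(1 / 16), (1 / 8), 0, (1 / 99), (297 / 2000), (9 / 20)⟩
  ⟨B, .ser (9994653 / 10000000) (34610869 / 100000000) (10012643 / 10000000), .near (5463 / 2500), (25249 / 25000), [
    ⟨0, 1, 1, 1, 0, 0,
      (corners B [181575000, 140334000, 52794000, 34066500, 129543000, 15003900, 35974700, 249540]),
      (corners B [8471530, 117245]),
      (corners B [1138310000, 836276000]),
      [],
      [],
      [],
      [],
      (corners B [458620000, 114526000]), 0⟩,
    ⟨1, (25249 / 25000), (100497 / 100000), 1, 0, (979 / 5000000000),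
      (corners B [689528000, 155365000, 535397000, 26909600, 617343000, 14414500, 421526000, 7643850]),
      (corners B [913023, 732]),
      (corners B [1157450000, 998894000]),
      (corners B [86468700, 8191]),
      [],
      [],
      [],
      (corners B [253559000, 155296]), (5463 / 2500)⟩]⟩

def rows3_ok : rows3.ok par fld = true := by decide +kernel

/-- The rows of this file. -/
def rows000_list : List Row := [rows0, rows1, rows2, rows3]

theorem rows000_list_ok : ∀ R ∈ rows000_list, R.ok par fld = true := by
  simp [rows000_list, rows0_ok, rows1_ok, rows2_ok, rows3_ok]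

end Vale.Agent.P237.Petty.Cor.Band.A
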