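import Vale.Agent.P237.Petty.Cor.Band.A.Par

/-!
# P237: some rows of the lower band, checked by the kernel
-/

set_option linter.style.longLine false

namespace Vale.Agent.P237.Petty.Cor.Band.A

/-- A row. -/
def rows4 : Row :=
  let B : Box := ⟨(1 / 8), (1 / 4), 0, (1 / 99), (297 / 2000), (9 / 20)⟩
  ⟨B, .ser (99779659 / 100000000) (3594529 / 10000000) (10025317 / 10000000), .near (47553 / 20000), (101083 / 100000), [
    ⟨0, 1, 1, 1, 0, 0,
      (corners B [204035000, 29812900, 41380300, 10707, 104431000, 14411200, 17921400, 72884]),
      (corners B [5160130, 3155300]),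
      (corners B [1317550000, 935597000]),
      [],
      [],
      [],
      [],
      (corners B [175157000, 10393]), 0⟩,
    ⟨1, (101083 / 100000), (100541 / 100000), 1, 0, (943 / 400000000),
      (corners B [373460000, 76200500, 53103000, 127915, 298438000, 2947490, 18249200, 388319]),
      (corners B [162374, 9018]),
      (corners B [1441900000, 964436000]),
      (corners B [2917790, 41811700]),
      [],
      [],
      [],
      (corners B [41926200, 2461960]), (47553 / 20000)⟩]⟩

def rows4_ok : rows4.ok par fld = true := by decide +kernel

/-- A row. -/
def rows5 : Row :=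
  let B : Box := ⟨(1 / 4), (1 / 2), 0, (1 / 99), (297 / 2000), (9 / 20)⟩
  ⟨B, .ser (99066337 / 100000000) (38796269 / 100000000) (5025381 / 5000000), .near (70259 / 25000), (633 / 625), [
    ⟨0, 1, 1, 1, 0, 0,
      (corners B [132203000, 1735880, 20244200, 11621400, 8470280, 7169, 2783260, 1759]),
      (corners B [878612, 7355]),
      (corners B [1168690000, 924577000]),
      [],
      [],
      [],
      [],
      (corners B [10926900, 1801]), 0⟩,
    ⟨1, (633 / 625), (50319 / 50000), 1, 0, (31001 / 10000000000),
      (corners B [56461000, 16767300, 17313100, 88418, 6223090, 15488200, 4881090, 21355]),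
      (corners B [615297, 4267]),
      (corners B [1374020000, 956072000]),
      (corners B [220331000, 52951000]),
      [],
      [],
      [],
      (corners B [472382000, 3418610]), (70259 / 25000)⟩]⟩

def rows5_ok : rows5.ok par fld = true := by decide +kernel

/-- A row. -/
def rows6 : Row :=
  let B : Box := ⟨(1 / 2), (3 / 4), 0, (1 / 99), (297 / 2000), (9 / 20)⟩
  ⟨B, .ser (96977181 / 100000000) (42964453 / 100000000) (629771 / 625000), .near (82889 / 25000), (10151 / 10000), [
    ⟨0, 1, 1, 1, 0, 0,
      (corners B [23597900, 31531000, 20554700, 111772, 8021230, 3521, 4807150, 42888400]),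
      (corners B [1221050, 6491]),
      (corners B [1141360000, 912321000]),
      [],
      [],
      [],
      [],
      (corners B [6710590, 4812]), 0⟩,
    ⟨1, (10151 / 10000), (100753 / 100000), 1, 0, (1277 / 5000000000),
      (corners B [19556700, 9870, 33926700, 18784, 15991800, 1507, 25252100, 27633100]),
      (corners B [1670970, 327]),
      (corners B [1546420000, 968469000]),
      (corners B [525648000, 51707000]),
      [],
      [],
      [],
      (corners B [4981480000, 290427]), (82889 / 25000)⟩]⟩

def rows6_ok : rows6.ok par fld = true := by decide +kernel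

/-- A row. -/
def rows7 : Row :=
  let B : Box := ⟨(3 / 4), 1, 0, (1 / 99), (297 / 2000), (9 / 20)⟩
  ⟨B, .ser (46734549 / 50000000) (23812461 / 50000000) (10102041 / 10000000), .near (390531 / 100000), (50889 / 50000), [
    ⟨0, 1, 1, 1, 0, 0,
      (corners B [108474, 56653400, 7365870, 64226400, 4377370, 27056600, 25048, 51076700]),
      (corners B [8049, 3527530]),
      (corners B [1031400000, 978707000]),
      [],
      [],
      [],
      [],
      (corners B [73061, 357790000]), 0⟩,
    ⟨1, (50889 / 50000), (50443 / 50000), 1, 0, (171331 / 10000000000),
      (corners B [19001800, 173877, 26090500, 168106, 13723600, 72467, 16430600, 5401330]),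
      (corners B [1269250, 7394]),
      (corners B [1624830000, 1025410000]),
      (corners B [532100000, 50549]),
      [],
      [],
      [],
      (corners B [14517800000, 3985180]), (390531 / 100000)⟩]⟩

def rows7_ok : rows7.ok par fld = true := by decide +kernel

/-- The rows of this file. -/
def rows001_list : List Row := [rows4, rows5, rows6, rows7]

theorem rows001_list_ok : ∀ R ∈ rows001_list, R.ok par fld = true := by
  simp [rows001_list, rows4_ok, rows5_ok, rows6_ok, rows7_ok]

end Vale.Agent.P237.Petty.Cor.Band.A
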