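import Vale.Agent.P237.Petty.Cor.Band.A.Par

/-!
# P237: some rows of the lower band, checked by the kernel
-/

set_option linter.style.longLine false

namespace Vale.Agent.P237.Petty.Cor.Band.A

/-- A row. -/
def rows8 : Row :=
  let B : Box := ⟨1, (5 / 4), 0, (1 / 99), (297 / 2000), (9 / 20)⟩
  ⟨B, .ser (3529171 / 4000000) (52839439 / 100000000) (5063939 / 5000000), .near (459369 / 100000), (102091 / 100000), [
    ⟨0, 1, 1, 1, 0, 0,
      (corners B [94873, 80272800, 16448900, 78660300, 52535, 59733800, 53807, 59215800]),
      (corners B [8714, 4807430]),
      (corners B [951792000, 963101000]),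
      [],
      [],
      [],
      [],
      (corners B [63556, 650979000]), 0⟩,
    ⟨1, (102091 / 100000), (101041 / 100000), 1, 0, (171571 / 5000000000),
      (corners B [26431600, 237289, 19541800, 235362, 22612600, 12184000, 21790900, 281608]),
      (corners B [1438220, 14046]),
      (corners B [1525830000, 1009860000]),
      (corners B [595606000, 94284]),
      [],
      [],
      [],
      (corners B [15366000000, 7424160]), (459369 / 100000)⟩]⟩

def rows8_ok : rows8.ok par fld = true := by decide +kernel

/-- A row. -/
def rows9 : Row :=
  let B : Box := ⟨(5 / 4), (3 / 2), 0, (1 / 198), (297 / 2000), (9 / 20)⟩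
  ⟨B, .ser (81066897 / 100000000) (914593 / 1562500) (629771 / 625000), .near (265409 / 50000), (101209 / 100000), [
    ⟨0, 1, 1, 1, 0, 0,
      (corners B [43227, 100425000, 14466, 98649000, 33310500, 90788700, 21211500, 74769800]),
      (corners B [3820, 5888760]),
      (corners B [799607000, 903523000]),
      [],
      [],
      [],
      [],
      (corners B [39511, 880376000]), 0⟩,
    ⟨1, (101209 / 100000), (100603 / 100000), 1, 0, (39947 / 10000000),
      (corners B [185979, 5637850, 86197, 22214900, 29705100, 16039100, 56653400, 7601820]),
      (corners B [14181, 385649]),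
      (corners B [962427000, 928313000]),
      (corners B [515415000, 2470360]),
      [],
      [],
      [],
      (corners B [376194000, 396207000]), (265409 / 50000)⟩]⟩

def rows9_ok : rows9.ok par fld = true := by decide +kernel

/-- A row. -/
def rows10 : Row :=
  let B : Box := ⟨(5 / 4), (3 / 2), (1 / 198), (1 / 99), (297 / 2000), (9 / 20)⟩
  ⟨B, .ser (20221743 / 25000000) (14669473 / 25000000) (10153847 / 10000000), .near (134929 / 25000), (12807 / 12500), [
    ⟨0, 1, 1, 1, 0, 0,
      (corners B [20084800, 90651900, 11084000, 80623100, 73984, 83460700, 219062, 52431400]),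
      (corners B [138054, 4807870]),
      (corners B [944348000, 835675000]),
      [],
      [],
      [],
      [],
      (corners B [66269, 634654000]), 0⟩,
    ⟨1, (12807 / 12500), (101221 / 100000), 1, 0, (259073 / 10000000000),
      (corners B [37162600, 187849, 56379500, 20761500, 47086300, 16933400, 81463700, 168316]),
      (corners B [2972990, 13608]),
      (corners B [1285240000, 878088000]),
      (corners B [645007000, 85409]),
      [],
      [],
      [],
      (corners B [13971800000, 7362520]), (134929 / 25000)⟩]⟩

def rows10_ok : rows10.ok par fld = true := by decide +kernel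

/-- A row. -/
def rows11 : Row :=
  let B : Box := ⟨(3 / 2), (25 / 16), 0, (1 / 198), (297 / 2000), (19593 / 100000)⟩
  ⟨B, .ser (75173237 / 100000000) (7804939 / 12500000) (5039771 / 5000000), .near (34467 / 6250), (25137 / 25000), [
    ⟨0, 1, 1, 1, 0, 0,
      (corners B [16885, 47603100, 18800700, 55603700, 17339700, 63658500, 71058, 67275500]),
      (corners B [14232, 6399530]),
      (corners B [805362000, 1021250000]),
      [],
      [],
      [],
      [],
      (corners B [19406, 33962900]), 0⟩,
    ⟨1, (25137 / 25000), (50137 / 50000), 1, 0, (23177 / 2000000),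
      (corners B [58652, 29417600, 34857500, 44810700, 47528100, 72064200, 12202500, 85228000]),
      (corners B [13650, 2608220]),
      (corners B [680127000, 1038830000]),
      (corners B [245716000, 609281000]),
      [],
      [],
      [],
      (corners B [2193860000, 30922100000]), (34467 / 6250)⟩]⟩

def rows11_ok : rows11.ok par fld = true := by decide +kernel

/-- The rows of this file. -/
def rows002_list : List Row := [rows8, rows9, rows10, rows11]

theorem rows002_list_ok : ∀ R ∈ rows002_list, R.ok par fld = true := by
  simp [rows002_list, rows8_ok, rows9_ok, rows10_ok, rows11_ok]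

end Vale.Agent.P237.Petty.Cor.Band.A
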