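import Vale.Agent.P237.Petty.Cor.Band.A.Par

/-!
# P237: some rows of the lower band, checked by the kernel
-/

set_option linter.style.longLine false

namespace Vale.Agent.P237.Petty.Cor.Band.A

/-- A row. -/
def rows12 : Row :=
  let B : Box := ⟨(25 / 16), (13 / 8), 0, (1 / 198), (297 / 2000), (19593 / 100000)⟩
  ⟨B, .ser (72571063 / 100000000) (32049213 / 50000000) (40331 / 40000), .near (143389 / 25000), (10057 / 10000), [
    ⟨0, 1, 1, 1, 0, 0,
      (corners B [104019, 49942700, 16892500, 58653000, 11197500, 59371200, 279204, 62666000]),
      (corners B [158695, 7955790]),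
      (corners B [913326000, 997574000]),
      [],
      [],
      [],
      [],
      (corners B [92434, 27385200]), 0⟩,
    ⟨1, (10057 / 10000), (20057 / 20000), 1, 0, (28249 / 1250000),
      (corners B [355252, 18084600, 37866100, 40218200, 55297500, 63149400, 23523500, 79300100]),
      (corners B [77891, 1942260]),
      (corners B [658449000, 860485000]),
      (corners B [506105000, 528678000]),
      [],
      [],
      [],
      (corners B [3398460000, 22296900000]), (143389 / 25000)⟩]⟩

def rows12_ok : rows12.ok par fld = true := by decide +kernel

/-- A row. -/
def rows13 : Row :=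
  let B : Box := ⟨(13 / 8), (7 / 4), 0, (1 / 198), (297 / 2000), (19593 / 100000)⟩
  ⟨B, .ser (68348309 / 100000000) (66690117 / 100000000) (2522293 / 2500000), .near (620277 / 100000), (12577 / 12500), [
    ⟨0, 1, 1, 1, 0, 0,
      (corners B [119842, 49211000, 30244000, 67323200, 14025400, 53270700, 352334, 59154100]),
      (corners B [207226, 10897900]),
      (corners B [1084410000, 1044200000]),
      [],
      [],
      [],
      [],
      (corners B [108727, 22491000]), 0⟩,
    ⟨1, (12577 / 12500), (25077 / 25000), 1, 0, (177109 / 10000000),
      (corners B [463276, 11116800, 69706700, 62774600, 72384500, 63463800, 19849400, 85703300]),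
      (corners B [99426, 1582160]),
      (corners B [674809000, 738933000]),
      (corners B [896712000, 591516000]),
      [],
      [],
      [],
      (corners B [2645390000, 17360400000]), (620277 / 100000)⟩]⟩

def rows13_ok : rows13.ok par fld = true := by decide +kernel

/-- A row. -/
def rows14 : Row :=
  let B : Box := ⟨(3 / 2), (7 / 4), (1 / 198), (1 / 99), (297 / 2000), (19593 / 100000)⟩
  ⟨B, .ser (17750849 / 25000000) (32609703 / 50000000) (10179949 / 10000000), .near (315997 / 50000), (101253 / 100000), [
    ⟨0, 1, 1, 1, 0, 0,
      (corners B [152, 46478200, 38297400, 63860100, 22977300, 51415300, 573, 48680500]),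
      (corners B [212, 12103600]),
      (corners B [1225340000, 1176760000]),
      [],
      [],
      [],
      [],
      (corners B [143, 19222600]), 0⟩,
    ⟨1, (101253 / 100000), (161 / 160), 1, 0, (223659 / 10000000),
      (corners B [418190, 9564680, 83245000, 67579400, 71626500, 60361800, 15815900, 69263800]),
      (corners B [93316, 1464880]),
      (corners B [835031000, 865165000]),
      (corners B [926634000, 601726000]),
      [],
      [],
      [],
      (corners B [2449480000, 16307700000]), (315997 / 50000)⟩]⟩

def rows14_ok : rows14.ok par fld = true := by decide +kernel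

/-- A row. -/
def rows15 : Row :=
  let B : Box := ⟨(7 / 4), (15 / 8), 0, (1 / 99), (297 / 2000), (19593 / 100000)⟩
  ⟨B, .ser (61526337 / 100000000) (70572753 / 100000000) (10193051 / 10000000), .near (27379 / 4000), (101357 / 100000), [
    ⟨0, 1, 1, 1, 0, 0,
      (corners B [175811, 35943900, 38508100, 56934600, 18070200, 27330500, 350724, 25864500]),
      (corners B [281090, 14658900]),
      (corners B [1528550000, 1274140000]),
      [],
      [],
      [],
      [],
      (corners B [144108, 10825100]), 0⟩,
    ⟨1, (101357 / 100000), (100677 / 100000), 1, 0, (1127 / 50000),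
      (corners B [11741900, 1567600, 74957100, 52951600, 169896000, 120365000, 199593000, 14963100]),
      (corners B [2191190, 330021]),
      (corners B [904871000, 831007000]),
      (corners B [1591680000, 1206460000]),
      [],
      [],
      [],
      (corners B [10953900000, 1692850000]), (27379 / 4000)⟩]⟩

def rows15_ok : rows15.ok par fld = true := by decide +kernel

/-- The rows of this file. -/
def rows003_list : List Row := [rows12, rows13, rows14, rows15]

theorem rows003_list_ok : ∀ R ∈ rows003_list, R.ok par fld = true := by
  simp [rows003_list, rows12_ok, rows13_ok, rows14_ok, rows15_ok]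

end Vale.Agent.P237.Petty.Cor.Band.A
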