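import Vale.Agent.P237.Petty.Cor.Band.A.Par

/-!
# P237: some rows of the lower band, checked by the kernel
-/

set_option linter.style.longLine false

namespace Vale.Agent.P237.Petty.Cor.Band.A

/-- A row. -/
def rows16 : Row :=
  let B : Box := ⟨(15 / 8), 2, 0, (1 / 99), (297 / 2000), (19593 / 100000)⟩
  ⟨B, .ser (27096863 / 50000000) (37223807 / 50000000) (5103093 / 5000000), .near (29647 / 4000), (101469 / 100000), [
    ⟨0, 1, 1, 1, 0, 0,
      (corners B [310560, 29080700, 31361000, 46648800, 21595200, 27161200, 440911, 31747500]),
      (corners B [530349, 16066800]),
      (corners B [1857740000, 1403780000]),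
      [],
      [],
      [],
      [],
      (corners B [227572, 10700800]), 0⟩,
    ⟨1, (101469 / 100000), (25183 / 25000), 1, 0, (54483 / 500000),
      (corners B [41720400, 61900500, 10113300, 47560800, 158984000, 193183000, 21964300, 256440000]),
      (corners B [3980840, 5849500]),
      (corners B [1508570000, 1021600000]),
      (corners B [1128620000, 1077790000]),
      [],
      [],
      [],
      (corners B [9378230000, 9768230000]), (29647 / 4000)⟩]⟩

def rows16_ok : rows16.ok par fld = true := by decide +kernel

/-- A row. -/
def rows17 : Row :=
  let B : Box := ⟨(3 / 2), 2, 0, (1 / 99), (19593 / 100000), (25851 / 100000)⟩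
  ⟨B, .ser (13076981 / 20000000) (68965067 / 100000000) (5103093 / 5000000), .near (370807 / 50000), (101939 / 100000), [
    ⟨0, 1, 1, 1, 0, 0,
      (corners B [134157, 53199700, 54473300, 65575400, 28523500, 39959700, 721016, 36999900]),
      (corners B [75583, 8890290]),
      (corners B [1357630000, 1094480000]),
      [],
      [],
      [],
      [],
      (corners B [231077, 20069600]), 0⟩,
    ⟨1, (101939 / 100000), (20193 / 20000), 1, 0, (75209 / 50000000),
      (corners B [118804, 20326400, 94882500, 78004000, 81531600, 73265200, 4338960, 111428000]),
      (corners B [28706, 2679100]),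
      (corners B [1152930000, 957636000]),
      (corners B [547555000, 342402000]),
      [],
      [],
      [],
      (corners B [462759000, 8984730000]), (370807 / 50000)⟩]⟩

def rows17_ok : rows17.ok par fld = true := by decide +kernel

/-- A row. -/
def rows18 : Row :=
  let B : Box := ⟨(3 / 2), 2, 0, (1 / 99), (25851 / 100000), (9 / 20)⟩
  ⟨B, .ser (13076981 / 20000000) (68965067 / 100000000) (5103093 / 5000000), .near (185739 / 25000), (5169 / 5000), [
    ⟨0, 1, 1, 1, 0, 0,
      (corners B [66991800, 27791900, 53244100, 40017600, 968501, 948913, 552045, 828559]),
      (corners B [1489700, 305553]),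
      (corners B [1082740000, 718395000]),
      [],
      [],
      [],
      [],
      (corners B [472353, 781076]), 0⟩,
    ⟨1, (5169 / 5000), (25419 / 25000), 1, 0, (4553 / 1000000000),
      (corners B [65543600, 52033, 130386000, 32740700, 98979600, 80380, 187828000, 80132]),
      (corners B [5340460, 3816]),
      (corners B [970411000, 761409000]),
      (corners B [284022000, 27540]),
      [],
      [],
      [],
      (corners B [5960910000, 1693690]), (185739 / 25000)⟩]⟩

def rows18_ok : rows18.ok par fld = true := by decide +kernel

/-- A row. -/
def rows19 : Row :=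
  let B : Box := ⟨2, (33 / 16), 0, (1 / 99), (297 / 2000), (9 / 20)⟩
  ⟨B, .ser (48065999 / 100000000) (302621 / 390625) (5106383 / 5000000), .near (773071 / 100000), (103517 / 100000), [
    ⟨0, 1, 1, 1, 0, 0,
      (corners B [105579, 132260, 53798300, 68907400, 52396600, 126390000, 453232, 2777310]),
      (corners B [323063000, 44747]),
      (corners B [1067380000, 733356000]),
      [],
      [],
      [],
      [],
      (corners B [109815, 492543]), 0⟩,
    ⟨1, (103517 / 100000), (6359 / 6250), 1, 0, (140549 / 500000000),
      (corners B [1666070, 1418460, 86815300, 56713600, 414882000, 254590000, 989690000, 681097000]),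
      (corners B [115938000, 253590]),
      (corners B [993559000, 586557000]),
      (corners B [3016000, 422214000]),
      [],
      [],
      [],
      (corners B [55565500000, 142090000]), (773071 / 100000)⟩]⟩

def rows19_ok : rows19.ok par fld = true := by decide +kernel

/-- The rows of this file. -/
def rows004_list : List Row := [rows16, rows17, rows18, rows19]

theorem rows004_list_ok : ∀ R ∈ rows004_list, R.ok par fld = true := by
  simp [rows004_list, rows16_ok, rows17_ok, rows18_ok, rows19_ok]

end Vale.Agent.P237.Petty.Cor.Band.A
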