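import Vale.Agent.P237.Petty.Cor.Band.A.Par

/-!
# P237: some rows of the lower band, checked by the kernel
-/

set_option linter.style.longLine false

namespace Vale.Agent.P237.Petty.Cor.Band.A

/-- A row. -/
def rows20 : Row :=
  let B : Box := ⟨(33 / 16), (17 / 8), 0, (1 / 99), (297 / 2000), (9 / 20)⟩
  ⟨B, .ser (43669153 / 100000000) (15916219 / 20000000) (2043871 / 2000000), .near (1287 / 160), (103659 / 100000), [
    ⟨0, 1, 1, 1, 0, 0,
      (corners B [119386, 149787, 67336100, 71247200, 96008200, 117653000, 22429600, 2421850]),
      (corners B [402816000, 50779]),
      (corners B [1010780000, 774899000]),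
      [],
      [],
      [],
      [],
      (corners B [165183, 576872]), 0⟩,
    ⟨1, (103659 / 100000), (50907 / 50000), 1, 0, (450593 / 1000000000),
      (corners B [1769150, 2101920, 90743700, 84575700, 397662000, 359322000, 977115000, 977756000]),
      (corners B [219961000, 380609]),
      (corners B [1010800000, 585980000]),
      (corners B [3487490, 492279000]),
      [],
      [],
      [],
      (corners B [41609300000, 170303000]), (1287 / 160)⟩]⟩

def rows20_ok : rows20.ok par fld = true := by decide +kernel

/-- A row. -/
def rows21 : Row :=
  let B : Box := ⟨(17 / 8), (9 / 4), 0, (1 / 99), (297 / 2000), (9 / 20)⟩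
  ⟨B, .ser (36567231 / 100000000) (16580037 / 20000000) (10232559 / 10000000), .near (174147 / 20000), (2599 / 2500), [
    ⟨0, 1, 1, 1, 0, 0,
      (corners B [27713, 44553, 196464000, 145142000, 162705000, 158380000, 751625000, 134827000]),
      (corners B [451793000, 12862]),
      (corners B [1077390000, 833876000]),
      [],
      [],
      [],
      [],
      (corners B [42896, 544453]), 0⟩,
    ⟨1, (2599 / 2500), (101961 / 100000), 1, 0, (666907 / 10000000000),
      (corners B [380555, 484028, 468456000, 134700000, 429282000, 256799000, 1598520000, 849024000]),
      (corners B [305094000, 97675]),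
      (corners B [1062080000, 724892000]),
      (corners B [770809, 296676000]),
      [],
      [],
      [],
      (corners B [31515700000, 38530800]), (174147 / 20000)⟩]⟩

def rows21_ok : rows21.ok par fld = true := by decide +kernel

/-- A row. -/
def rows22 : Row :=
  let B : Box := ⟨(9 / 4), (5 / 2), 0, (1 / 99), (297 / 2000), (9 / 20)⟩
  ⟨B, .ser (2554057 / 12500000) (18004021 / 20000000) (2564767 / 2500000), .near (12749 / 1250), (104639 / 100000), [
    ⟨0, 1, 1, 1, 0, 0,
      (corners B [238116, 334450, 1436730000, 457145000, 266470000, 8908510, 2776390000, 1362860000]),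
      (corners B [580148000, 100249]),
      (corners B [1040580000, 934018000]),
      [],
      [],
      [],
      [],
      (corners B [485509, 211798000]), 0⟩,
    ⟨1, (104639 / 100000), (51147 / 50000), 1, 0, (532229 / 10000000000),
      (corners B [466992, 524862, 2041370000, 420962000, 634089000, 21857800, 3313800000, 1747720000]),
      (corners B [441029000, 114636]),
      (corners B [1109190000, 889890000]),
      (corners B [758315, 30471200]),
      [],
      [],
      [],
      (corners B [14589900000, 34730800]), (12749 / 1250)⟩]⟩

def rows22_ok : rows22.ok par fld = true := by decide +kernel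

/-- A row. -/
def rows23 : Row :=
  let B : Box := ⟨(5 / 2), (7 / 2), 0, (1 / 99), (297 / 2000), (9 / 20)⟩
  ⟨B, .ser (-27663411 / 50000000) (12019873 / 10000000) (10366493 / 10000000), .near (191291 / 10000), (54349 / 50000), [
    ⟨0, 1, 1, 1, 0, 0,
      (corners B [5081680, 7885330, 10968700000, 8101260000, 17860300, 7795030, 13151800000, 9625370000]),
      (corners B [893488000, 1974540]),
      (corners B [1355180000, 1179850000]),
      [],
      [],
      [],
      [],
      (corners B [1664260000, 2169760000]), 0⟩,
    ⟨1, (54349 / 50000), (104259 / 100000), 1, 0, (210207 / 5000000000),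
      (corners B [1029330000, 2455240, 12535700000, 10416800000, 1323200000, 1714010000, 15040300000, 12477500000]),
      (corners B [567435000, 185461]),
      (corners B [1374500000, 884265000]),
      (corners B [123610, 253702]),
      [],
      [],
      [],
      (corners B [7364370, 10431300]), (191291 / 10000)⟩]⟩

def rows23_ok : rows23.ok par fld = true := by decide +kernel

/-- The rows of this file. -/
def rows005_list : List Row := [rows20, rows21, rows22, rows23]

theorem rows005_list_ok : ∀ R ∈ rows005_list, R.ok par fld = true := by
  simp [rows005_list, rows20_ok, rows21_ok, rows22_ok, rows23_ok]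

end Vale.Agent.P237.Petty.Cor.Band.A
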