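import Vale.Agent.P237.Petty.Cor.Band.Cell
import Vale.Agent.P237.Petty.Cor.Band.A.Rows000
import Vale.Agent.P237.Petty.Cor.Band.A.Rows001
import Vale.Agent.P237.Petty.Cor.Band.A.Rows002
import Vale.Agent.P237.Petty.Cor.Band.A.Rows003
import Vale.Agent.P237.Petty.Cor.Band.A.Rows004
import Vale.Agent.P237.Petty.Cor.Band.A.Rows005
import Vale.Agent.P237.Petty.Cor.Band.A.Rows006
import Vale.Agent.P237.Petty.Cor.Band.A.Rows007
import Vale.Agent.P237.Petty.Cor.Band.A.Rows008
import Vale.Agent.P237.Petty.Cor.Band.A.Rows009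
import Vale.Agent.P237.Petty.Cor.Band.A.Rows010
import Vale.Agent.P237.Petty.Cor.Band.A.Rows011
import Vale.Agent.P237.Petty.Cor.Band.A.Rows012
import Vale.Agent.P237.Petty.Cor.Band.A.Rows013
import Vale.Agent.P237.Petty.Cor.Band.A.Rows014
import Vale.Agent.P237.Petty.Cor.Band.A.Rows015
import Vale.Agent.P237.Petty.Cor.Band.A.Rows016
import Vale.Agent.P237.Petty.Cor.Band.A.Rows017
import Vale.Agent.P237.Petty.Cor.Band.A.Rows018
import Vale.Agent.P237.Petty.Cor.Band.A.Rows019
import Vale.Agent.P237.Petty.Cor.Band.A.Rows020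
import Vale.Agent.P237.Petty.Cor.Band.A.Rows021
import Vale.Agent.P237.Petty.Cor.Band.A.Rows022
import Vale.Agent.P237.Petty.Cor.Band.A.Rows023
import Vale.Agent.P237.Petty.Cor.Band.A.Rows024
import Vale.Agent.P237.Petty.Cor.Band.A.Rows025
import Vale.Agent.P237.Petty.Cor.Band.A.Rows026
import Vale.Agent.P237.Petty.Cor.Band.A.Rows027
import Vale.Agent.P237.Petty.Cor.Band.A.Rows028
import Vale.Agent.P237.Petty.Cor.Band.A.Rows029
import Vale.Agent.P237.Petty.Cor.Band.A.Chart000
import Vale.Agent.P237.Petty.Cor.Band.A.Chart001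
import Vale.Agent.P237.Petty.Cor.Band.A.Chart002
import Vale.Agent.P237.Petty.Cor.Band.A.Chart003
import Vale.Agent.P237.Petty.Cor.Band.A.Chart004
import Vale.Agent.P237.Petty.Cor.Band.A.Chart005
import Vale.Agent.P237.Petty.Cor.Band.A.Chart006

/-!
# P237: the lower band of small values
-/

set_option linter.style.longLine false

namespace Vale.Agent.P237.Petty.Cor.Band.A

/-- The band. -/
def band : Data where
  par := par
  fld := fld
  w0 := (297 / 2000)
  w1 := (9 / 20)
  bulk := [rows000_list, rows001_list, rows002_list, rows003_list, rows004_list, rows005_list, rows006_list, rows007_list, rows008_list, rows009_list, rows010_list, rows011_list, rows012_list, rows013_list, rows014_list, rows015_list, rows016_list, rows017_list, rows018_list, rows019_list, rows020_list, rows021_list, rows022_list, rows023_list, rows024_list, rows025_list, rows026_list, rows027_list, rows028_list, rows029_list].flatten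
  chart := [chart000_list, chart001_list, chart002_list, chart003_list, chart004_list, chart005_list, chart006_list].flatten
  cut := (.split 0 13 (.split 0 7 (.split 0 (3 / 2) (.split 0 (1 / 2) (.split 0 (1 / 16) (.split 1 (1 / 198) (.split 0 (1 / 32) (.leaf 0) (.leaf 1)) (.leaf 2)) (.split 0 (1 / 8) (.leaf 3) (.split 0 (1 / 4) (.leaf 4) (.leaf 5)))) (.split 0 1 (.split 0 (3 / 4) (.leaf 6) (.leaf 7)) (.split 0 (5 / 4) (.leaf 8) (.split 1 (1 / 198) (.leaf 9) (.leaf 10))))) (.split 0 (33 / 16) (.split 0 2 (.split 2 (19593 / 100000) (.split 0 (7 / 4) (.split 1 (1 / 198) (.split 0 (25 / 16) (.leaf 11) (.split 0 (13 / 8) (.leaf 12) (.leaf 13))) (.leaf 14)) (.split 0 (15 / 8) (.leaf 15) (.leaf 16))) (.split 2 (25851 / 100000) (.leaf 17) (.leaf 18))) (.leaf 19)) (.split 0 (7 / 2) (.split 0 (9 / 4) (.split 0 (17 / 8) (.leaf 20) (.leaf 21)) (.split 0 (5 / 2) (.leaf 22) (.leaf 23))) (.split 0 (43 / 8) (.split 0 (19 / 4) (.leaf 24) (.leaf 25)) (.split 0 6 (.leaf 26) (.split 1 (1 /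 198) (.leaf 27) (.leaf 28))))))) (.split 0 11 (.split 0 9 (.split 0 8 (.split 1 (1 / 198) (.leaf 29) (.split 0 (15 / 2) (.leaf 30) (.leaf 31))) (.split 1 (1 / 132) (.split 1 (1 / 198) (.leaf 32) (.leaf 33)) (.split 0 (17 / 2) (.leaf 34) (.leaf 35)))) (.split 0 10 (.split 1 (1 / 132) (.split 1 (1 / 198) (.leaf 36) (.leaf 37)) (.split 0 (19 / 2) (.leaf 38) (.leaf 39))) (.split 1 (1 / 132) (.split 1 (1 / 198) (.split 1 (1 / 396) (.leaf 40) (.leaf 41)) (.split 0 (21 / 2) (.leaf 44) (.leaf 45))) (.split 0 (21 / 2) (.leaf 46) (.leaf 47))))) (.split 0 12 (.split 1 (1 / 132) (.split 1 (1 / 198) (.split 1 (1 / 396) (.leaf 42) (.leaf 43)) (.split 0 (23 / 2) (.leaf 48) (.leaf 49))) (.split 0 (23 / 2) (.leaf 50) (.leaf 51))) (.split 1 (1 / 132) (.split 1 (1 / 198) (.split 1 (1 / 396) (.leaf 52) (.leaf 53)) (.split 0 (25 / 2) (.leaf 62) (.leaf 63))) (.split 0 (25 / 2) (.leaf 66) (.leaf 67)))))) (.split 0 20 (.split 0 16 (.split 1 (1 / 132) (.split 1 (1 / 198) (.split 1 (1 / 396) (.split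 0 14 (.split 0 (27 / 2) (.leaf 54) (.leaf 55)) (.split 1 (1 / 792) (.leaf 57) (.leaf 58))) (.split 0 15 (.split 0 14 (.leaf 56) (.leaf 59)) (.split 0 (31 / 2) (.leaf 60) (.leaf 61)))) (.split 0 14 (.split 0 (27 / 2) (.leaf 64) (.leaf 65)) (.split 0 15 (.split 1 (5 / 792) (.leaf 70) (.leaf 71)) (.split 1 (5 / 792) (.leaf 72) (.leaf 73))))) (.split 0 15 (.split 0 14 (.split 0 (27 / 2) (.leaf 68) (.leaf 69)) (.split 1 (7 / 792) (.leaf 74) (.split 0 (29 / 2) (.leaf 75) (.leaf 76)))) (.split 0 (31 / 2) (.split 1 (7 / 792) (.leaf 77) (.leaf 79)) (.split 1 (7 / 792) (.leaf 78) (.leaf 80))))) (.split 1 (1 / 198) (.split 1 (1 / 792) (.split 0 18 (.leaf 81) (.leaf 82)) (.split 1 (1 / 396) (.leaf 83) (.split 0 18 (.leaf 84) (.leaf 85)))) (.split 0 18 (.split 0 17 (.split 1 (1 / 132) (.leaf 86) (.leaf 88)) (.split 1 (1 / 132) (.leaf 87) (.leaf 89))) (.split 0 19 (.split 1 (1 / 132) (.leaf 90) (.leaf 92)) (.split 1 (1 / 132) (.leaf 91) (.leaf 93)))))) (.split 1 (1 / 198) (.split 1 (1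 / 396) (.split 1 (1 / 792) (.split 0 24 (.leaf 94) (.split 0 28 (.leaf 104) (.leaf 112))) (.split 0 24 (.leaf 95) (.split 0 28 (.leaf 105) (.leaf 113)))) (.split 0 24 (.split 0 22 (.leaf 96) (.leaf 97)) (.split 0 28 (.split 1 (1 / 264) (.leaf 106) (.leaf 107)) (.split 1 (1 / 264) (.leaf 114) (.leaf 115))))) (.split 1 (1 / 132) (.split 0 24 (.split 1 (5 / 792) (.leaf 98) (.split 0 22 (.leaf 99) (.leaf 100))) (.split 0 28 (.split 0 26 (.leaf 108) (.leaf 109)) (.split 0 30 (.leaf 116) (.leaf 118)))) (.split 0 24 (.split 0 21 (.leaf 101) (.split 0 22 (.leaf 102) (.leaf 103))) (.split 0 28 (.split 0 26 (.leaf 110) (.leaf 111)) (.split 0 30 (.leaf 117) (.leaf 119))))))))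
  cutFar := (.split 0 (11 / 100) (.split 1 (1 / 32) (.leaf 0) (.split 1 (1 / 8) (.leaf 1) (.leaf 2))) (.split 0 (11 / 50) (.split 1 (1 / 8) (.leaf 3) (.leaf 4)) (.split 1 (1 / 8) (.leaf 5) (.leaf 6))))

theorem band_ok : band.ok = true := by decide +kernel

theorem bulk_ok : ∀ R ∈ band.bulk, R.ok band.par band.fld = true := by
  simp only [band, List.mem_flatten, List.mem_cons, List.not_mem_nil, or_false]
  rintro R ⟨l, hl, hR⟩
  rcases hl with rfl | rfl | rfl | rfl | rfl | rfl | rfl | rfl | rfl | rfl | rfl | rfl | rfl | rfl | rfl | rfl | rfl | rfl | rfl | rfl | rfl | rfl | rfl | rfl | rfl | rfl | rfl | rfl | rfl | rfl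
  all_goals first
    | exact rows000_list_ok R hR
    | exact rows001_list_ok R hR
    | exact rows002_list_ok R hR
    | exact rows003_list_ok R hR
    | exact rows004_list_ok R hR
    | exact rows005_list_ok R hR
    | exact rows006_list_ok R hR
    | exact rows007_list_ok R hR
    | exact rows008_list_ok R hR
    | exact rows009_list_ok R hR
    | exact rows010_list_ok R hR
    | exact rows011_list_ok R hR
    | exact rows012_list_ok R hR
    | exact rows013_list_ok R hR
    | exact rows014_list_ok R hR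
    | exact rows015_list_ok R hR
    | exact rows016_list_ok R hR
    | exact rows017_list_ok R hR
    | exact rows018_list_ok R hR
    | exact rows019_list_ok R hR
    | exact rows020_list_ok R hR
    | exact rows021_list_ok R hR
    | exact rows022_list_ok R hR
    | exact rows023_list_ok R hR
    | exact rows024_list_ok R hR
    | exact rows025_list_ok R hR
    | exact rows026_list_ok R hR
    | exact rows027_list_ok R hR
    | exact rows028_list_ok R hR
    | exact rows029_list_ok R hR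

theorem chart_ok : ∀ R ∈ band.chart, R.ok band.par band.fld = true := by
  simp only [band, List.mem_flatten, List.mem_cons, List.not_mem_nil, or_false]
  rintro R ⟨l, hl, hR⟩
  rcases hl with rfl | rfl | rfl | rfl | rfl | rfl | rfl
  all_goals first
    | exact chart000_list_ok R hR
    | exact chart001_list_ok R hR
    | exact chart002_list_ok R hR
    | exact chart003_list_ok R hR
    | exact chart004_list_ok R hR
    | exact chart005_list_ok R hR
    | exact chart006_list_ok R hR

/-- The cell of the band. -/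
theorem corCell_band {p : ℕ} (hp : 98 ≤ p) {lo hi : ℝ} (hlo : (band.w0 : ℝ) ≤ lo * ((p : ℝ) + 1))
    (hhi : hi * ((p : ℝ) + 1) ≤ band.w1) : CorCell p lo hi :=
  corCell_of_band band_ok bulk_ok chart_ok hp hlo hhi

end Vale.Agent.P237.Petty.Cor.Band.A
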