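import Vale.Agent.P237.Petty.Cor.Band.Spec

/-!
# P237: the constants of the lower band of small values
-/

namespace Vale.Agent.P237.Petty.Cor.Band.A

/-- The constants. -/
def par : Par := ⟨(19 / 400), (39 / 20), (53 / 100), (-97 / 100), (-1 / 8), (149 / 200), (-321 / 1000), (-2 / 25), (23 / 50), (51 / 1000)⟩

/-- The spline. -/
def fld : Fld :=
  ⟨747 / 1000, 371 / 100, [
    ⟨0, 0, ⟨(115183 / 50000000), (-3135769 / 5000000), (-1054573 / 5000000), (22600637 / 5000000)⟩⟩,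
    ⟨0, 1, ⟨(-1154987 / 100000000), (-23753657 / 100000000), (1828961 / 1000000), (-68052837 / 5000000)⟩⟩,
    ⟨0, 2, ⟨(-529531 / 50000000), (15123749 / 150000000), (-18347879 / 1875000), (1987860031 / 30000000)⟩⟩,
    ⟨0, 3, ⟨(2465837 / 75000000), (-135999031 / 1500000000), (105764939 / 10000000), (-10786229971 / 150000000)⟩⟩,
    ⟨0, 4, ⟨(-44767 / 750000000), (-8759 / 328125000), (134021 / 262500000), (71877 / 12500000)⟩⟩,
    ⟨(1 / 2), 2, ⟨(-1334709 / 50000000), (3093307 / 25000000), (-64340069 / 10000000), (51527829 / 1250000)⟩⟩,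
    ⟨(1 / 2), 3, ⟨(-4646993 / 100000000), (721213 / 20000000), (-105327613 / 10000000), (361952561 / 5000000)⟩⟩,
    ⟨1, 2, ⟨(-3969 / 2000000), (-63737 / 100000000), (-2580499 / 5000000), (7413703 / 5000000)⟩⟩,
    ⟨1, 3, ⟨(184777 / 100000000), (327227 / 25000000), (31769447 / 10000000), (-107134231 / 10000000)⟩⟩,
    ⟨(3 / 2), 2, ⟨(332941 / 6250000), (-5191597 / 25000000), (-45626909 / 10000000), (136290647 / 10000000)⟩⟩,
    ⟨(3 / 2), 3, ⟨(-157429 / 50000000), (302569 / 2000000), (-21884913 / 5000000), (40701417 / 2000000)⟩⟩,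
    ⟨2, 2, ⟨(72957 / 20000000), (448981 / 20000000), (22660047 / 10000000), (-155362479 / 10000000)⟩⟩,
    ⟨2, 3, ⟨(1255629 / 100000000), (-2043767 / 50000000), (11463183 / 10000000), (-101878599 / 10000000)⟩⟩,
    ⟨(5 / 2), 2, ⟨(-28747 / 12500000), (-252721 / 25000000), 0, 0⟩⟩,
    ⟨(5 / 2), 3, ⟨(10831 / 3125000), (-7138829 / 100000000), 0, 0⟩⟩,
    ⟨(7 / 2), 2, ⟨(-53629 / 100000000), (-184581 / 100000000), 0, 0⟩⟩,
    ⟨(7 / 2), 3, ⟨(-163 / 4000000), (191077 / 100000000), 0, 0⟩⟩,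
    ⟨6, 2, ⟨(387 / 50000000), (59761 / 50000000), 0, 0⟩⟩,
    ⟨6, 3, ⟨(12997 / 25000000), (-15547 / 100000000), 0, 0⟩⟩,
    ⟨12, 2, ⟨(63249 / 3125000), (-3068851 / 100000000), 0, 0⟩⟩,
    ⟨12, 3, ⟨(-431191 / 100000000), (-2072 / 390625), 0, 0⟩⟩]⟩

end Vale.Agent.P237.Petty.Cor.Band.A
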